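import Crest.Agent.R106.HR.Defs
import Crest.Agent.R203.AFlow

/-! R106/HR/Gen (owner helper81): generic calculus (`Bd` algebra, Gronwall, transport estimate) -/

set_option autoImplicit false
set_option linter.unusedVariables false
set_option linter.unusedSectionVars false

noncomputable section

namespace Crest.Agent.R106.HR

open MeasureTheory Set Filter Topology Crest.AnalysisR.VecCalc3 Crest.AnalysisR.PDE.RVM
open scoped ContDiff

section Bd
variable {X Y E F G : Type} [NormedAddCommGroup X] [NormedSpace ℝ X] [NormedAddCommGroup Y] [NormedSpace ℝ Y]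
  [NormedAddCommGroup E] [NormedSpace ℝ E] [NormedAddCommGroup F] [NormedSpace ℝ F] [NormedAddCommGroup G] [NormedSpace ℝ G]

theorem Bd.mono {k k' : ℕ} {g : X → F} {M M' : ℝ} (h : Bd k g M) (hk : k' ≤ k) (hM : M ≤ M') : Bd k' g M' :=
  fun j hj x => (h j (hj.trans hk) x).trans hM

theorem Bd.nonneg {k : ℕ} {g : X → F} {M : ℝ} (h : Bd k g M) : 0 ≤ M := (norm_nonneg _).trans (h 0 k.zero_le 0)

theorem Bd.norm_le {k : ℕ} {g : X → F} {M : ℝ} (h : Bd k g M) (x : X) : ‖g x‖ ≤ M := by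
  simpa using h 0 k.zero_le x

theorem bd_zero_iff {g : X → F} {M : ℝ} : Bd 0 g M ↔ ∀ x, ‖g x‖ ≤ M := by
  refine ⟨fun h x => h.norm_le x, fun h j hj x => ?_⟩
  obtain rfl : j = 0 := by omega
  simpa using h x

/-- `norm_iteratedFDeriv_fderiv` -/
theorem bd_succ_iff {k : ℕ} {g : X → F} {M : ℝ} : Bd (k + 1) g M ↔ (∀ x, ‖g x‖ ≤ M) ∧ Bd k (fderiv ℝ g) M := by
  refine ⟨fun h => ⟨fun x => h.norm_le x, fun j hj x => ?_⟩, fun h j hj x => ?_⟩
  · rw [norm_iteratedFDeriv_fderiv]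
    exact h (j + 1) (by omega) x
  · cases j with
    | zero => simpa using h.1 x
    | succ j =>
      rw [← norm_iteratedFDeriv_fderiv]
      exact h.2 j (by omega) x

theorem bd_zero_fun (k : ℕ) {M : ℝ} (hM : 0 ≤ M) : Bd k (fun _ : X => (0 : F)) M := by
  intro j _ x
  rw [iteratedFDeriv_fun_zero]
  simpa using hM

theorem Bd.add {k : ℕ} {f g : X → F} {a b : ℝ} (hf : ContDiff ℝ ∞ f) (hg : ContDiff ℝ ∞ g) (h : Bd k f a) (h' : Bd k g b) :
    Bd k (fun x => f x + g x) (a + b) := by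
  intro j hj x
  have hj' : (j : WithTop ℕ∞) ≤ ∞ := by exact_mod_cast le_top
  rw [fun_iteratedFDeriv_add_apply (hf.contDiffAt.of_le hj') (hg.contDiffAt.of_le hj')]
  exact (norm_add_le _ _).trans (add_le_add (h j hj x) (h' j hj x))

/-- `ContinuousLinearMap.iteratedFDeriv_comp_left`, `ContinuousLinearMap.norm_compContinuousMultilinearMap_le` -/
theorem Bd.clm {k : ℕ} {g : X → F} {M : ℝ} (hg : ContDiff ℝ ∞ g) (h : Bd k g M) (L : F →L[ℝ] G) : Bd k (fun x => L (g x)) (‖L‖ * M) := by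
  intro j hj x
  have hj' : (j : WithTop ℕ∞) ≤ ∞ := by exact_mod_cast le_top
  have := L.iteratedFDeriv_comp_left (x := x) hg.contDiffAt hj'
  change ‖iteratedFDeriv ℝ j (L ∘ g) x‖ ≤ _
  rw [this]
  exact (L.norm_compContinuousMultilinearMap_le _).trans (mul_le_mul_of_nonneg_left (h j hj x) (norm_nonneg _))

/-- `ContinuousLinearMap.iteratedFDeriv_comp_right`, `ContinuousMultilinearMap.norm_compContinuousLinearMap_le` -/
theorem Bd.comp {k : ℕ} {g : X → F} {M : ℝ} (hg : ContDiff ℝ ∞ g) (h : Bd k g M) (L : Y →L[ℝ] X) (hL : ‖L‖ ≤ 1) :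
    Bd k (fun y => g (L y)) M := by
  intro j hj y
  have hj' : (j : WithTop ℕ∞) ≤ ∞ := by exact_mod_cast le_top
  change ‖iteratedFDeriv ℝ j (g ∘ L) y‖ ≤ _
  rw [L.iteratedFDeriv_comp_right hg y hj']
  refine (ContinuousMultilinearMap.norm_compContinuousLinearMap_le _ _).trans ?_
  have h1 : ∏ _i : Fin j, ‖L‖ ≤ 1 := Finset.prod_le_one (fun _ _ => norm_nonneg _) fun _ _ => hL
  calc _ ≤ M * 1 := mul_le_mul (h j hj _) h1 (Finset.prod_nonneg fun _ _ => norm_nonneg _) h.nonneg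
    _ = M := mul_one M

theorem genb_sum (j k : ℕ) (hj : j ≤ k) (c : ℝ) (hc : 0 ≤ c) :
    ∑ i ∈ Finset.range (j + 1), (j.choose i : ℝ) * c ≤ 2 ^ k * c := by
  rw [← Finset.sum_mul]
  have h1 : ∑ i ∈ Finset.range (j + 1), (j.choose i : ℝ) = 2 ^ j := by
    exact_mod_cast Nat.sum_range_choose j
  rw [h1]
  exact mul_le_mul_of_nonneg_right (pow_le_pow_right₀ one_le_two hj) hc

/-- `ContinuousLinearMap.norm_iteratedFDeriv_le_of_bilinear`, `Nat.sum_range_choose` -/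
theorem Bd.bilin {k : ℕ} {f : X → E} {g : X → F} {a b : ℝ} (B : E →L[ℝ] F →L[ℝ] G) (hf : ContDiff ℝ ∞ f) (hg : ContDiff ℝ ∞ g)
    (h : Bd k f a) (h' : Bd k g b) : Bd k (fun x => B (f x) (g x)) (‖B‖ * 2 ^ k * a * b) := by
  intro j hj x
  have ha := h.nonneg
  have hb := h'.nonneg
  refine (B.norm_iteratedFDeriv_le_of_bilinear hf hg x (n := j) (by exact_mod_cast le_top)).trans ?_
  have : ∑ i ∈ Finset.range (j + 1), (j.choose i : ℝ) * ‖iteratedFDeriv ℝ i f x‖ * ‖iteratedFDeriv ℝ (j - i) g x‖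
      ≤ 2 ^ k * (a * b) := by
    refine le_trans (Finset.sum_le_sum fun i hi => ?_) (genb_sum j k hj (a * b) (mul_nonneg ha hb))
    have hi' : i ≤ j := Nat.lt_succ_iff.1 (Finset.mem_range.1 hi)
    rw [mul_assoc]
    refine mul_le_mul_of_nonneg_left ?_ (Nat.cast_nonneg _)
    exact mul_le_mul (h i (hi'.trans hj) x) (h' _ ((Nat.sub_le _ _).trans hj) x) (norm_nonneg _) ha
  calc _ ≤ ‖B‖ * (2 ^ k * (a * b)) := mul_le_mul_of_nonneg_left this (norm_nonneg B)
    _ = _ := by ring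

/-- the tame form: in every Leibniz term one of the two orders is `≤ k` (for `i ≤ k` use `a * b'`, for `i = k + 1` use `a' * b`) -/
theorem Bd.tame {k : ℕ} {f : X → E} {g : X → F} {a a' b b' : ℝ} (B : E →L[ℝ] F →L[ℝ] G) (hf : ContDiff ℝ ∞ f) (hg : ContDiff ℝ ∞ g)
    (h : Bd k f a) (h1 : Bd (k + 1) f a') (h' : Bd k g b) (h1' : Bd (k + 1) g b') :
    Bd (k + 1) (fun x => B (f x) (g x)) (‖B‖ * 2 ^ (k + 1) * (a * b' + a' * b)) := by
  intro j hj x
  have ha := h.nonneg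
  have hb := h'.nonneg
  have ha' := h1.nonneg
  have hb' := h1'.nonneg
  refine (B.norm_iteratedFDeriv_le_of_bilinear hf hg x (n := j) (by exact_mod_cast le_top)).trans ?_
  have : ∑ i ∈ Finset.range (j + 1), (j.choose i : ℝ) * ‖iteratedFDeriv ℝ i f x‖ * ‖iteratedFDeriv ℝ (j - i) g x‖
      ≤ 2 ^ (k + 1) * (a * b' + a' * b) := by
    refine le_trans (Finset.sum_le_sum fun i hi => ?_) (genb_sum j (k + 1) hj _ (by positivity))
    have hi' : i ≤ j := Nat.lt_succ_iff.1 (Finset.mem_range.1 hi)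
    rw [mul_assoc]
    refine mul_le_mul_of_nonneg_left ?_ (Nat.cast_nonneg _)
    by_cases hik : i ≤ k
    · have := mul_le_mul (h i hik x) (h1' _ ((Nat.sub_le j i).trans hj) x) (norm_nonneg _) ha
      have := mul_nonneg ha' hb
      linarith
    · have := mul_le_mul (h1 i (hi'.trans hj) x) (h' (j - i) (by omega) x) (norm_nonneg _) ha'
      have := mul_nonneg ha hb'
      linarith
  calc _ ≤ ‖B‖ * (2 ^ (k + 1) * (a * b' + a' * b)) := mul_le_mul_of_nonneg_left this (norm_nonneg B)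
    _ = _ := by ring

/-- directional derivatives (`bd_succ_iff`, `Bd.clm` with `ContinuousLinearMap.apply ℝ F e`) -/
theorem Bd.dir {k : ℕ} {g : X → F} {M : ℝ} (hg : ContDiff ℝ ∞ g) (h : Bd (k + 1) g M) {e : X} (he : ‖e‖ ≤ 1) :
    Bd k (fun x => fderiv ℝ g x e) M := by
  have h1 := (bd_succ_iff.1 h).2
  have h2 := h1.clm (hg.fderiv_right (m := ∞) (by simp)) (ContinuousLinearMap.apply ℝ F e)
  refine Bd.mono h2 le_rfl ?_
  have h3 : ‖ContinuousLinearMap.apply ℝ F e‖ ≤ 1 := by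
    refine ContinuousLinearMap.opNorm_le_bound _ zero_le_one fun L => ?_
    rw [ContinuousLinearMap.apply_apply, one_mul]
    exact (L.le_opNorm e).trans (mul_le_of_le_one_right (norm_nonneg _) he)
  exact mul_le_of_le_one_left h.nonneg h3

/-- converse: `iteratedFDeriv j (fun x => fderiv g x e) x m = iteratedFDeriv j (fderiv g) x m e`, so
`‖iteratedFDeriv j (fderiv g) x m‖ ≤ M * ∏ ‖m i‖` (`ContinuousLinearMap.opNorm_le_of_unit_norm`, `ContinuousMultilinearMap.opNorm_le_bound`) -/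
theorem bd_of_dir {k : ℕ} {g : X → F} {M : ℝ} (hg : ContDiff ℝ ∞ g) (h0 : ∀ x, ‖g x‖ ≤ M)
    (h : ∀ e : X, ‖e‖ ≤ 1 → Bd k (fun x => fderiv ℝ g x e) M) : Bd (k + 1) g M := by
  refine bd_succ_iff.2 ⟨h0, fun j hj x => ?_⟩
  have hM : 0 ≤ M := (norm_nonneg _).trans (h0 0)
  have hj' : (j : WithTop ℕ∞) ≤ ∞ := by exact_mod_cast le_top
  have hd : ContDiff ℝ ∞ (fderiv ℝ g) := hg.fderiv_right (m := ∞) (by simp)
  refine ContinuousMultilinearMap.opNorm_le_bound hM fun m => ?_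
  refine ContinuousLinearMap.opNorm_le_of_unit_norm (mul_nonneg hM (Finset.prod_nonneg fun _ _ => norm_nonneg _)) fun e he => ?_
  have h1 := (ContinuousLinearMap.apply ℝ F e).iteratedFDeriv_comp_left (x := x) hd.contDiffAt hj'
  have h2 : iteratedFDeriv ℝ j (fderiv ℝ g) x m e = iteratedFDeriv ℝ j (fun x => fderiv ℝ g x e) x m := by
    change _ = iteratedFDeriv ℝ j (ContinuousLinearMap.apply ℝ F e ∘ fderiv ℝ g) x m
    rw [h1]
    rfl
  rw [h2]
  have h3 := h e he.le j hj x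
  refine ((iteratedFDeriv ℝ j (fun x => fderiv ℝ g x e) x).le_opNorm m).trans ?_
  gcongr

/-- `HasCompactSupport.iteratedFDeriv`, `Continuous.bounded_above_of_compact_support`, maximum over `j ≤ k` -/
theorem bd_of_cs {g : X → F} (hg : ContDiff ℝ ∞ g) (hc : HasCompactSupport g) (k : ℕ) : ∃ M, Bd k g M := by
  have H : ∀ j : ℕ, ∃ C, ∀ x, ‖iteratedFDeriv ℝ j g x‖ ≤ C := fun j =>
    (hg.continuous_iteratedFDeriv (m := j) (by exact_mod_cast le_top)).bounded_above_of_compact_support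
      (hc.iteratedFDeriv (𝕜 := ℝ) j)
  choose C hC using H
  refine ⟨∑ j ∈ Finset.range (k + 1), C j, fun j hj x => (hC j x).trans ?_⟩
  exact Finset.single_le_sum (f := C) (fun i _ => (norm_nonneg _).trans (hC i 0)) (Finset.mem_range.2 (Nat.lt_succ_of_le hj))

theorem contDiff_sl {g : ℝ × X → F} (hg : ContDiff ℝ ∞ g) (t : ℝ) : ContDiff ℝ ∞ (sl g t) :=
  hg.comp (contDiff_const.prodMk contDiff_id)

theorem fderiv_sl {g : ℝ × X → F} (hg : ContDiff ℝ ∞ g) (t : ℝ) (x : X) :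
    fderiv ℝ (sl g t) x = (fderiv ℝ g (t, x)).comp (ContinuousLinearMap.inr ℝ ℝ X) := by
  have h1 : HasFDerivAt (fun y : X => ((t, y) : ℝ × X)) (ContinuousLinearMap.inr ℝ ℝ X) x := hasFDerivAt_prodMk_right t x
  have h2 : HasFDerivAt g (fderiv ℝ g (t, x)) (t, x) := (hg.differentiable (by simp) _).hasFDerivAt
  exact (h2.comp x h1).fderiv

/-- `sl g t = (fun p => g (p + (t, 0))) ∘ inr`, `iteratedFDeriv_comp_add_right` -/
theorem norm_iter_sl {g : ℝ × X → F} (hg : ContDiff ℝ ∞ g) (k : ℕ) (t : ℝ) (x : X) :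
    ‖iteratedFDeriv ℝ k (sl g t) x‖ ≤ ‖iteratedFDeriv ℝ k g (t, x)‖ := by
  have e : sl g t = (fun p => g (p + (t, 0))) ∘ (ContinuousLinearMap.inr ℝ ℝ X) := by
    funext y; simp [sl]
  have hs : ContDiff ℝ ∞ (fun p : ℝ × X => g (p + (t, 0))) := hg.comp (contDiff_id.add contDiff_const)
  rw [e, ContinuousLinearMap.iteratedFDeriv_comp_right _ hs _ (by exact_mod_cast le_top)]
  refine (ContinuousMultilinearMap.norm_compContinuousLinearMap_le _ _).trans ?_
  rw [iteratedFDeriv_comp_add_right]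
  have h1 : ∏ _i : Fin k, ‖ContinuousLinearMap.inr ℝ ℝ X‖ ≤ 1 :=
    Finset.prod_le_one (fun _ _ => norm_nonneg _) (fun _ _ => ContinuousLinearMap.norm_inr_le_one ..)
  have h2 : (ContinuousLinearMap.inr ℝ ℝ X) x + (t, 0) = (t, x) := by simp
  rw [h2]
  exact mul_le_of_le_one_right (norm_nonneg _) h1

theorem Bd.sl {k : ℕ} {g : ℝ × X → F} {M : ℝ} (hg : ContDiff ℝ ∞ g) (h : Bd k g M) (t : ℝ) : Bd k (sl g t) M :=
  fun j hj x => (norm_iter_sl hg j t x).trans (h j hj _)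

/-- `L (τ, y) = τ • L (1, 0) + L (0, y)` -/
theorem norm_le_dt_dx (L : ℝ × X →L[ℝ] F) : ‖L‖ ≤ ‖L (1, 0)‖ + ‖L.comp (ContinuousLinearMap.inr ℝ ℝ X)‖ := by
  refine ContinuousLinearMap.opNorm_le_bound _ (by positivity) fun p => ?_
  obtain ⟨τ, y⟩ := p
  have e : L (τ, y) = τ • L (1, 0) + (L.comp (ContinuousLinearMap.inr ℝ ℝ X)) y := by
    rw [← map_smul, ContinuousLinearMap.comp_apply, ← map_add]; simp
  have h1 : ‖τ‖ ≤ ‖((τ, y) : ℝ × X)‖ := norm_fst_le (τ, y)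
  have h2 : ‖y‖ ≤ ‖((τ, y) : ℝ × X)‖ := norm_snd_le (τ, y)
  rw [e]
  refine (norm_add_le _ _).trans ?_
  rw [norm_smul, add_mul]
  refine add_le_add ?_ (((L.comp _).le_opNorm y).trans (mul_le_mul_of_nonneg_left h2 (norm_nonneg _)))
  rw [mul_comm]
  exact mul_le_mul_of_nonneg_left h1 (norm_nonneg _)

/-- Gronwall: compare `‖y s‖` with `B s = exp (∫ α) * (‖y 0‖ + ∫ ψ)`, whose derivative is `α B + exp (∫ α) ψ ≥ α B + ψ`;
e.g. apply `image_norm_le_of_norm_deriv_right_le_deriv_boundary` to `z s = exp (-∫ α) • y s` is NOT enough (sign); use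
`image_le_of_liminf_slope_right_lt_deriv_boundary`/`image_norm_le_of_norm_deriv_right_lt_deriv_boundary` with `B_ε s = exp (∫ α) * (‖y 0‖ + ε + ε s + ∫ ψ)`, then `ε → 0` -/
theorem gron {y y' : ℝ → F} {α ψ : ℝ → ℝ} {t : ℝ} (ht : 0 ≤ t) (hα : Continuous α) (hψ : Continuous ψ)
    (hα0 : ∀ s ∈ Icc 0 t, 0 ≤ α s) (hψ0 : ∀ s ∈ Icc 0 t, 0 ≤ ψ s) (hy : ∀ s, HasDerivAt y (y' s) s)
    (h : ∀ s ∈ Icc 0 t, ‖y' s‖ ≤ α s * ‖y s‖ + ψ s) :
    ‖y t‖ ≤ Real.exp (∫ s in (0 : ℝ)..t, α s) * (‖y 0‖ + ∫ s in (0 : ℝ)..t, ψ s) := by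
  have key : ∀ ε : ℝ, 0 < ε → ‖y t‖ ≤ Real.exp (∫ s in (0 : ℝ)..t, α s) * (‖y 0‖ + (∫ s in (0 : ℝ)..t, ψ s) + ε * t) := fun ε hε => by
    refine image_norm_le_of_norm_deriv_right_lt_deriv_boundary (f := y) (a := 0) (b := t)
      (fun s _ => (hy s).continuousAt.continuousWithinAt) (fun s _ => (hy s).hasDerivWithinAt)
      (B := fun x => Real.exp (∫ s in (0 : ℝ)..x, α s) * (‖y 0‖ + (∫ s in (0 : ℝ)..x, ψ s) + ε * x)) (by simp)
      (fun x => (hα.integral_hasStrictDerivAt 0 x).hasDerivAt.exp.mul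
        (((hψ.integral_hasStrictDerivAt 0 x).hasDerivAt.const_add _).add ((hasDerivAt_id' x).const_mul ε)))
      (fun x hx he => (h x (Ico_subset_Icc_self hx)).trans_lt ?_) (right_mem_Icc.2 ht)
    have h1 : 1 ≤ Real.exp (∫ s in (0 : ℝ)..x, α s) :=
      Real.one_le_exp (intervalIntegral.integral_nonneg hx.1 fun s hs => hα0 s ⟨hs.1, hs.2.trans hx.2.le⟩)
    have h2 := mul_le_mul_of_nonneg_right h1 (add_nonneg (hψ0 x (Ico_subset_Icc_self hx)) hε.le)
    rw [he]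
    linarith
  have hc : Tendsto (fun ε : ℝ => Real.exp (∫ s in (0 : ℝ)..t, α s) * (‖y 0‖ + (∫ s in (0 : ℝ)..t, ψ s) + ε * t)) (𝓝[>] 0)
      (𝓝 (Real.exp (∫ s in (0 : ℝ)..t, α s) * (‖y 0‖ + ∫ s in (0 : ℝ)..t, ψ s))) :=
    tendsto_nhdsWithin_of_tendsto_nhds (Continuous.tendsto' (by fun_prop) _ _ (by simp))
  exact ge_of_tendsto hc (eventually_nhdsWithin_of_forall key)

/-- the fixed point of `φ ↦ c + c ∫ φ` -/
theorem exp_fix (c t : ℝ) : c + c * ∫ s in (0 : ℝ)..t, c * Real.exp (c * s) = c * Real.exp (c * t) := by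
  have h : ∀ s ∈ uIcc 0 t, HasDerivAt (fun s => Real.exp (c * s)) (c * Real.exp (c * s)) s := fun s _ => by
    simpa [mul_comm] using ((hasDerivAt_id' s).const_mul c).exp
  rw [intervalIntegral.integral_eq_sub_of_hasDerivAt h (by apply Continuous.intervalIntegrable; fun_prop)]
  simp only [mul_zero, Real.exp_zero]
  ring

/-- closing a recursive linear estimate: induction on `n` with `φ s = c * exp (c * s)` (`exp_fix`), then `M = c * exp (c * T)` -/
theorem rec_bd {P : ℕ → ℝ → ℝ → Prop} {T c : ℝ} (hc : 0 ≤ c) (mono : ∀ n s a b, P n s a → a ≤ b → P n s b)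
    (h0 : ∀ s ∈ Icc 0 T, P 0 s 0)
    (hs : ∀ n (φ : ℝ → ℝ), Continuous φ → (∀ s, 0 ≤ φ s) → (∀ s ∈ Icc 0 T, P n s (φ s)) →
      ∀ t ∈ Icc 0 T, P (n + 1) t (c + c * ∫ s in (0 : ℝ)..t, φ s)) : ∃ M, 0 ≤ M ∧ ∀ n, ∀ s ∈ Icc 0 T, P n s M := by
  have key : ∀ n, ∀ s ∈ Icc 0 T, P n s (c * Real.exp (c * s)) := by
    intro n
    induction n with
    | zero => exact fun s hs' => mono _ _ _ _ (h0 s hs') (by positivity)
    | succ n ih =>
      intro t ht
      have := hs n (fun s => c * Real.exp (c * s)) (by fun_prop) (fun s => by positivity) ih t ht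
      rwa [exp_fix] at this
  refine ⟨c * Real.exp (c * T), by positivity, fun n s hs' => mono _ _ _ _ (key n s hs') ?_⟩
  exact mul_le_mul_of_nonneg_left (Real.exp_le_exp.2 (mul_le_mul_of_nonneg_left hs'.2 hc)) hc

/-- geometric decay: induction on `n` with `φ s = M * (1 / 2) ^ n * exp (2 * (c + 1) * s)` -/
theorem rec_geo {P : ℕ → ℝ → ℝ → Prop} {T c M : ℝ} (hc : 0 ≤ c) (hM : 0 ≤ M) (mono : ∀ n s a b, P n s a → a ≤ b → P n s b)
    (h0 : ∀ s ∈ Icc 0 T, P 0 s M)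
    (hs : ∀ n (φ : ℝ → ℝ), Continuous φ → (∀ s, 0 ≤ φ s) → (∀ s ∈ Icc 0 T, P n s (φ s)) →
      ∀ t ∈ Icc 0 T, P (n + 1) t (c * ∫ s in (0 : ℝ)..t, φ s)) : ∃ M', 0 ≤ M' ∧ ∀ n, ∀ s ∈ Icc 0 T, P n s (M' * (1 / 2) ^ n) := by
  obtain ⟨d, hd⟩ : ∃ d : ℝ, d = 2 * (c + 1) := ⟨_, rfl⟩
  have hd0 : 0 < d := by rw [hd]; positivity
  have key : ∀ n, ∀ s ∈ Icc 0 T, P n s (M * (1 / 2) ^ n * Real.exp (d * s)) := by
    intro n
    induction n with
    | zero =>
      intro s hs'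
      refine mono _ _ _ _ (h0 s hs') ?_
      have : 1 ≤ Real.exp (d * s) := Real.one_le_exp (mul_nonneg hd0.le hs'.1)
      simpa using le_mul_of_one_le_right hM this
    | succ n ih =>
      intro t ht
      have h1 := hs n (fun s => M * (1 / 2) ^ n * Real.exp (d * s)) (by fun_prop) (fun s => by positivity) ih t ht
      refine mono _ _ _ _ h1 ?_
      have h2 := exp_fix d t
      rw [intervalIntegral.integral_const_mul] at h2 ⊢
      obtain ⟨I, hI⟩ : ∃ I, I = ∫ s in (0 : ℝ)..t, Real.exp (d * s) := ⟨_, rfl⟩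
      rw [← hI] at h2 ⊢
      have hI0 : 0 ≤ I := by
        rw [hI]
        exact intervalIntegral.integral_nonneg ht.1 fun s _ => (Real.exp_pos _).le
      have h3 : 1 + d * I = Real.exp (d * t) := by
        apply mul_left_cancel₀ hd0.ne'
        rw [← h2]; ring
      have h4 : c * I ≤ 1 / 2 * Real.exp (d * t) := by
        rw [← h3, hd]; nlinarith
      have h5 : 0 ≤ M * (1 / 2) ^ n := by positivity
      calc c * (M * (1 / 2) ^ n * I) = M * (1 / 2) ^ n * (c * I) := by ring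
        _ ≤ M * (1 / 2) ^ n * (1 / 2 * Real.exp (d * t)) := mul_le_mul_of_nonneg_left h4 h5
        _ = _ := by ring
  refine ⟨M * Real.exp (d * T), by positivity, fun n s hs' => mono _ _ _ _ (key n s hs') ?_⟩
  have : Real.exp (d * s) ≤ Real.exp (d * T) := Real.exp_le_exp.2 (mul_le_mul_of_nonneg_left hs'.2 hd0.le)
  have h5 : 0 ≤ M * (1 / 2) ^ n := by positivity
  calc M * (1 / 2) ^ n * Real.exp (d * s) ≤ M * (1 / 2) ^ n * Real.exp (d * T) := mul_le_mul_of_nonneg_left this h5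
    _ = _ := by ring

end Bd

section Trans
variable {X : Type} [NormedAddCommGroup X] [NormedSpace ℝ X]

/-- the `k`-th space derivative as a function on space-time -/
def dX {F : Type} [NormedAddCommGroup F] [NormedSpace ℝ F] (k : ℕ) (u : ℝ × X → F) (p : ℝ × X) : ContinuousMultilinearMap ℝ (fun _ : Fin k => X) F :=
  iteratedFDeriv ℝ k (sl u p.1) p.2
/-- the first space derivative -/
def d1 {F : Type} [NormedAddCommGroup F] [NormedSpace ℝ F] (u : ℝ × X → F) (p : ℝ × X) : X →L[ℝ] F :=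
  (fderiv ℝ u p).comp (ContinuousLinearMap.inr ℝ ℝ X)

variable {F : Type} [NormedAddCommGroup F] [NormedSpace ℝ F]

theorem contDiff_d1 {u : ℝ × X → F} (hu : ContDiff ℝ ∞ u) : ContDiff ℝ ∞ (d1 u) := by
  exact (hu.fderiv_right (m := ∞) (by simp)).clm_comp contDiff_const

theorem sl_d1 {u : ℝ × X → F} (hu : ContDiff ℝ ∞ u) (t : ℝ) : sl (d1 u) t = fderiv ℝ (sl u t) :=
  funext fun x => (fderiv_sl hu t x).symm

/-- symmetry of the second derivative (`ContDiffAt.isSymmSndFDerivAt`) -/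
theorem fderiv_d1 {u : ℝ × X → F} (hu : ContDiff ℝ ∞ u) (p w : ℝ × X) (e : X) :
    fderiv ℝ (d1 u) p w e = fderiv ℝ (fderiv ℝ u) p (0, e) w := by
  have h1 : DifferentiableAt ℝ (fderiv ℝ u) p := ((hu.fderiv_right (m := ∞) (by simp)).differentiable (by simp)) p
  have h2 : HasFDerivAt (d1 u) (((ContinuousLinearMap.compL ℝ X (ℝ × X) F).flip (ContinuousLinearMap.inr ℝ ℝ X)).comp
      (fderiv ℝ (fderiv ℝ u) p)) p :=
    ((ContinuousLinearMap.compL ℝ X (ℝ × X) F).flip (ContinuousLinearMap.inr ℝ ℝ X)).hasFDerivAt.comp p h1.hasFDerivAt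
  rw [h2.fderiv]
  exact (hu.contDiffAt.isSymmSndFDerivAt (by simpa using WithTop.coe_le_coe.2 (le_top (a := (2 : ℕ∞))))).eq w (0, e)

/-- differentiate `fderiv u p (1, b p) = h p` in the direction `(0, e)`; `fderiv_d1` -/
theorem trans_d1 {u h : ℝ × X → F} {b : ℝ × X → X} (hu : ContDiff ℝ ∞ u) (hb : ContDiff ℝ ∞ b)
    (he : ∀ p, fderiv ℝ u p (1, b p) = h p) (p : ℝ × X) :
    fderiv ℝ (d1 u) p (1, b p) = d1 h p - (d1 u p).comp (d1 b p) := by
  have h1 : DifferentiableAt ℝ (fderiv ℝ u) p := ((hu.fderiv_right (m := ∞) (by simp)).differentiable (by simp)) p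
  have h2 : DifferentiableAt ℝ b p := (hb.differentiable (by simp)) p
  have h3 := h1.hasFDerivAt.clm_apply ((hasFDerivAt_const (1 : ℝ) p).prodMk h2.hasFDerivAt)
  rw [show (fun y => fderiv ℝ u y (1, b y)) = h from funext he] at h3
  ext e
  rw [fderiv_d1 hu]
  simp [d1, h3.fderiv]

/-- `iteratedFDeriv_succ_eq_comp_right`, `sl_d1` -/
theorem dX_succ {u : ℝ × X → F} (hu : ContDiff ℝ ∞ u) (k : ℕ) :
    dX (k + 1) u = (continuousMultilinearCurryRightEquiv' ℝ k X F).symm ∘ dX k (d1 u) := by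
  funext p
  simp only [dX, Function.comp, sl_d1 hu]
  exact iteratedFDeriv_succ_eq_comp_right

/-- induction on `k` (generalising `F`): `iteratedFDeriv_zero_eq_comp`, `dX_succ` -/
theorem contDiff_dX (k : ℕ) : ∀ {F : Type} [NormedAddCommGroup F] [NormedSpace ℝ F] {u : ℝ × X → F}, ContDiff ℝ ∞ u →
    ContDiff ℝ ∞ (dX k u) := by
  induction k with
  | zero =>
    intro F _ _ u hu
    exact (continuousMultilinearCurryFin0 ℝ X F).symm.contDiff.comp hu
  | succ k ih =>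
    intro F _ _ u hu
    rw [dX_succ hu]
    exact (continuousMultilinearCurryRightEquiv' ℝ k X F).symm.contDiff.comp (ih (contDiff_d1 hu))

theorem genf_norm_dX_d1 {u : ℝ × X → F} (hu : ContDiff ℝ ∞ u) (k : ℕ) (p : ℝ × X) :
    ‖dX k (d1 u) p‖ = ‖dX (k + 1) u p‖ := by
  rw [dX_succ hu k]
  simp only [Function.comp_apply, LinearIsometryEquiv.norm_map]

theorem genf_dX_zero {u : ℝ × X → F} : dX 0 u = (continuousMultilinearCurryFin0 ℝ X F).symm ∘ u := by
  funext p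
  simp only [dX, iteratedFDeriv_zero_eq_comp, Function.comp_apply, sl]

theorem genf_dX_sub {u v : ℝ × X → F} (hu : ContDiff ℝ ∞ u) (hv : ContDiff ℝ ∞ v) (k : ℕ) (p : ℝ × X) :
    ‖dX k (fun q => u q - v q) p‖ ≤ ‖dX k u p‖ + ‖dX k v p‖ := by
  have h1 : ContDiff ℝ k (sl u p.1) := (contDiff_sl hu p.1).of_le (by exact_mod_cast le_top)
  have h2 : ContDiff ℝ k (sl v p.1) := (contDiff_sl hv p.1).of_le (by exact_mod_cast le_top)
  have : dX k (fun q => u q - v q) p = dX k u p - dX k v p := by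
    simp only [dX]
    have e : sl (fun q => u q - v q) p.1 = sl u p.1 - sl v p.1 := rfl
    rw [e, iteratedFDeriv_sub_apply h1.contDiffAt h2.contDiffAt]
  rw [this]
  exact norm_sub_le _ _

theorem genf_dX_comp {u : ℝ × X → X →L[ℝ] F} {c : ℝ × X → X →L[ℝ] X} (hu : ContDiff ℝ ∞ u) (hc : ContDiff ℝ ∞ c)
    (k : ℕ) (p : ℝ × X) :
    ‖dX k (fun q => (u q).comp (c q)) p‖ ≤ 2 ^ k * ∑ j ∈ Finset.range (k + 1), ‖dX j c p‖ * ‖dX (k - j) u p‖ := by
  have h1 : ContDiff ℝ k (sl u p.1) := (contDiff_sl hu p.1).of_le (by exact_mod_cast le_top)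
  have h2 : ContDiff ℝ k (sl c p.1) := (contDiff_sl hc p.1).of_le (by exact_mod_cast le_top)
  have hB : ‖(ContinuousLinearMap.compL ℝ X X F).flip‖ ≤ 1 := by
    rw [ContinuousLinearMap.opNorm_flip]; exact ContinuousLinearMap.norm_compL_le ℝ X X F
  have := (ContinuousLinearMap.compL ℝ X X F).flip.norm_iteratedFDeriv_le_of_bilinear_of_le_one h2 h1 p.2
    (le_refl (k : WithTop ℕ∞)) hB
  have e : (fun y => (ContinuousLinearMap.compL ℝ X X F).flip (sl c p.1 y) (sl u p.1 y)) =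
      sl (fun q => (u q).comp (c q)) p.1 := by
    funext y; simp [sl]
  rw [e] at this
  refine this.trans ?_
  rw [Finset.mul_sum]
  refine Finset.sum_le_sum fun j _ => ?_
  have hch : (k.choose j : ℝ) ≤ 2 ^ k := by exact_mod_cast Nat.choose_le_two_pow k j
  simp only [dX]
  rw [mul_assoc]
  exact mul_le_mul_of_nonneg_right hch (by positivity)

/-- induction on `k` (generalising `F`, `u`, `h`): apply the hypothesis to `d1 u` with `h' = d1 h - (d1 u).comp (d1 b)` (`trans_d1`; `h` is smooth as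
`h = fun p => fderiv u p (1, b p)`); `dX_succ` + `LinearIsometryEquiv.comp_fderiv`/`norm_map`; `sl_d1`, `norm_iteratedFDeriv_fderiv`; Leibniz bound
`ContinuousLinearMap.norm_iteratedFDeriv_le_of_bilinear_of_le_one` for `ContinuousLinearMap.compL`, `Nat.choose_le_two_pow` -/
theorem trans_deriv {b : ℝ × X → X} (hb : ContDiff ℝ ∞ b) (k : ℕ) : ∀ {F : Type} [NormedAddCommGroup F] [NormedSpace ℝ F] {u h : ℝ × X → F},
    ContDiff ℝ ∞ u → (∀ p, fderiv ℝ u p (1, b p) = h p) → ∀ p, ‖fderiv ℝ (dX k u) p (1, b p)‖ ≤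
      ‖dX k h p‖ + 2 ^ k * ∑ j ∈ Finset.range k, ‖dX (j + 1) b p‖ * ‖dX (k - j) u p‖ := by
  induction k with
  | zero =>
    intro F _ _ u h hu he p
    rw [genf_dX_zero, genf_dX_zero, LinearIsometryEquiv.comp_fderiv]
    simp only [ContinuousLinearMap.comp_apply, he p, Function.comp_apply, LinearIsometryEquiv.norm_map,
      Finset.range_zero, Finset.sum_empty, mul_zero, add_zero]
    exact le_of_eq (LinearIsometryEquiv.norm_map _ _)
  | succ k ih =>
    intro F _ _ u h hu he p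
    have hh : ContDiff ℝ ∞ h := by
      have e : h = fun q => fderiv ℝ u q (1, b q) := funext fun q => (he q).symm
      rw [e]
      exact (hu.fderiv_right (m := ∞) (by simp)).clm_apply (contDiff_const.prodMk hb)
    have h1 := ih (contDiff_d1 hu) (h := fun q => d1 h q - (d1 u q).comp (d1 b q)) (trans_d1 hu hb he) p
    have h2 := genf_dX_sub (contDiff_d1 hh) ((contDiff_d1 hu).clm_comp (contDiff_d1 hb)) k p
    have h3 := genf_dX_comp (contDiff_d1 hu) (contDiff_d1 hb) k p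
    have e0 : ‖fderiv ℝ (dX (k + 1) u) p (1, b p)‖ = ‖fderiv ℝ (dX k (d1 u)) p (1, b p)‖ := by
      rw [dX_succ hu k]
      have := (continuousMultilinearCurryRightEquiv' ℝ k X F).symm.comp_fderiv (f := dX k (d1 u)) (x := p)
      erw [this]
      exact LinearIsometryEquiv.norm_map (continuousMultilinearCurryRightEquiv' ℝ k X F).symm _
    have e1 : ∑ j ∈ Finset.range (k + 1), ‖dX j (d1 b) p‖ * ‖dX (k - j) (d1 u) p‖ =
        ∑ j ∈ Finset.range (k + 1), ‖dX (j + 1) b p‖ * ‖dX (k + 1 - j) u p‖ := by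
      refine Finset.sum_congr rfl fun j hj => ?_
      have hj' : k - j + 1 = k + 1 - j := by have := Finset.mem_range.1 hj; omega
      rw [genf_norm_dX_d1 hb, genf_norm_dX_d1 hu, hj']
    have e2 : ∑ j ∈ Finset.range k, ‖dX (j + 1) b p‖ * ‖dX (k - j) (d1 u) p‖ ≤
        ∑ j ∈ Finset.range (k + 1), ‖dX (j + 1) b p‖ * ‖dX (k + 1 - j) u p‖ := by
      rw [Finset.sum_range_succ]
      have : ∑ j ∈ Finset.range k, ‖dX (j + 1) b p‖ * ‖dX (k - j) (d1 u) p‖ =
          ∑ j ∈ Finset.range k, ‖dX (j + 1) b p‖ * ‖dX (k + 1 - j) u p‖ := by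
        refine Finset.sum_congr rfl fun j hj => ?_
        have hj' : k - j + 1 = k + 1 - j := by have := Finset.mem_range.1 hj; omega
        rw [genf_norm_dX_d1 hu, hj']
      rw [this]
      have : 0 ≤ ‖dX (k + 1) b p‖ * ‖dX (k + 1 - k) u p‖ := by positivity
      linarith
    rw [e1] at h3
    rw [genf_norm_dX_d1 hh] at h2
    have h4 := mul_le_mul_of_nonneg_left e2 (show (0 : ℝ) ≤ 2 ^ k by positivity)
    rw [e0, pow_succ]
    linarith

theorem Gend_fwd {f f' : ℝ → X} {C t : ℝ} (ht : 0 ≤ t)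
    (hf : ∀ s ∈ Icc 0 t, HasDerivAt f (f' s) s) (hb : ∀ s ∈ Icc 0 t, ‖f' s‖ ≤ C * (1 + ‖f s‖)) :
    1 + ‖f t‖ ≤ (1 + ‖f 0‖) * Real.exp (C * t) := by
  have h := norm_le_gronwallBound_of_norm_deriv_right_le (f := f) (f' := f') (δ := ‖f 0‖) (K := C)
    (ε := C) (a := 0) (b := t) (fun s hs => (hf s hs).continuousAt.continuousWithinAt)
    (fun s hs => (hf s (Ico_subset_Icc_self hs)).hasDerivWithinAt) le_rfl
    (fun s hs => by have := hb s (Ico_subset_Icc_self hs); linarith) t ⟨ht, le_rfl⟩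
  rw [sub_zero] at h
  by_cases hC : C = 0
  · subst hC
    rw [gronwallBound_K0] at h
    simp only [zero_mul, add_zero, Real.exp_zero, mul_one] at h ⊢
    linarith
  · rw [gronwallBound_of_K_ne_0 hC, div_self hC] at h
    simp only at h
    linarith

theorem Gend_gron {f f' : ℝ → X} {C t : ℝ} (hf : ∀ s, |s| ≤ |t| → HasDerivAt f (f' s) s)
    (hb : ∀ s, |s| ≤ |t| → ‖f' s‖ ≤ C * (1 + ‖f s‖)) :
    1 + ‖f t‖ ≤ (1 + ‖f 0‖) * Real.exp (C * |t|) := by
  rcases le_total 0 t with ht | ht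
  · have hs : ∀ s ∈ Icc 0 t, |s| ≤ |t| := fun s hs => by
      rw [abs_of_nonneg hs.1, abs_of_nonneg ht]; exact hs.2
    rw [abs_of_nonneg ht]
    exact Gend_fwd ht (fun s h => hf s (hs s h)) fun s h => hb s (hs s h)
  · have hs : ∀ s ∈ Icc 0 (-t), |(-s)| ≤ |t| := fun s hs => by
      rw [abs_neg, abs_of_nonneg hs.1, abs_of_nonpos ht]; exact hs.2
    have h := Gend_fwd (f := fun s => f (-s)) (f' := fun s => -f' (-s)) (C := C) (t := -t)
      (by linarith) (fun s h => by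
        have := (hf (-s) (hs s h)).scomp s (hasDerivAt_neg s)
        simpa [Function.comp_def] using this) (fun s h => by
        rw [norm_neg]; exact hb (-s) (hs s h))
    rw [abs_of_nonpos ht]
    simpa using h

theorem Gend_sol [CompleteSpace X] {V : X → X} {K : NNReal} (hK : LipschitzWith K V) (x : X) {T : ℝ} (hT : 0 < T) :
    ∃ α : ℝ → X, α 0 = x ∧ ∀ s, |s| < T → HasDerivAt α (V (α s)) s := by
  obtain ⟨C, hCd⟩ : ∃ C : ℝ, C = K + ‖V 0‖ := ⟨_, rfl⟩
  have hC : 0 ≤ C := by rw [hCd]; positivity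
  have hg : ∀ y, ‖V y‖ ≤ C * (1 + ‖y‖) := fun y => by
    have := hK.dist_le_mul y 0
    rw [dist_zero_right, dist_eq_norm] at this
    have := norm_sub_norm_le (V y) (V 0)
    rw [hCd]
    nlinarith [K.coe_nonneg, norm_nonneg y, norm_nonneg (V 0)]
  obtain ⟨R, hR⟩ : ∃ R : ℝ, R = (1 + ‖x‖) * Real.exp (C * T) := ⟨_, rfl⟩
  have hR0 : 0 < R := by rw [hR]; positivity
  let φ : X → ℝ := fun y => max 0 (min (R + 1 - ‖y‖) 1)
  have hφ0 : ∀ y, 0 ≤ φ y := fun y => le_max_left _ _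
  have hφ1 : ∀ y, φ y ≤ 1 := fun y => max_le zero_le_one (min_le_right _ _)
  have hφL : ∀ y y', |φ y - φ y'| ≤ ‖y - y'‖ := fun y y' => by
    have h1 : LipschitzWith 1 fun t : ℝ => max 0 (min t 1) := (LipschitzWith.id.min_const 1).const_max 0
    have h2 := h1.dist_le_mul (R + 1 - ‖y‖) (R + 1 - ‖y'‖)
    rw [Real.dist_eq, Real.dist_eq, NNReal.coe_one, one_mul] at h2
    refine h2.trans ?_
    rw [show R + 1 - ‖y‖ - (R + 1 - ‖y'‖) = -(‖y‖ - ‖y'‖) by ring, abs_neg]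
    exact abs_norm_sub_norm_le y y'
  let c : X → X := fun y => φ y • V y
  have hcb : ∀ y, ‖c y‖ ≤ ‖V y‖ := fun y => by
    simp only [c, norm_smul, Real.norm_eq_abs, abs_of_nonneg (hφ0 y)]
    exact mul_le_of_le_one_left (norm_nonneg _) (hφ1 y)
  have hcL : ∀ y, ‖c y‖ ≤ C * (2 + R) := fun y => by
    by_cases hy : ‖y‖ ≤ R + 1
    · exact (hcb y).trans ((hg y).trans (mul_le_mul_of_nonneg_left (by linarith) hC))
    · have : φ y = 0 := max_eq_left ((min_le_left _ _).trans (by linarith [not_le.1 hy]))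
      simp only [c, this, zero_smul, norm_zero]
      positivity
  let L : NNReal := ⟨C * (2 + R), by positivity⟩
  let a : NNReal := ⟨C * (2 + R) * T, by positivity⟩
  let K' : NNReal := ⟨C * (1 + (‖x‖ + a)) + K, by positivity⟩
  have hpl : IsPicardLindelof (fun _ => c) (tmin := -T) (tmax := T) ⟨0, by linarith, hT.le⟩ x a 0 L K' :=
    { lipschitzOnWith := fun _ _ => LipschitzOnWith.of_dist_le_mul fun y hy y' _ => by
        have h1 := mem_closedBall_iff_norm.1 hy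
        have h2 := norm_add_le x (y - x)
        rw [add_sub_cancel] at h2
        have h3 : ‖V y‖ ≤ C * (1 + (‖x‖ + a)) := (hg y).trans (mul_le_mul_of_nonneg_left (by linarith) hC)
        have h4 := hK.dist_le_mul y y'
        rw [dist_eq_norm, dist_eq_norm] at h4 ⊢
        have e : c y - c y' = (φ y - φ y') • V y + φ y' • (V y - V y') := by
          simp only [c, sub_smul, smul_sub]; abel
        rw [e]
        refine (norm_add_le _ _).trans ?_
        rw [norm_smul, norm_smul, Real.norm_eq_abs, Real.norm_eq_abs, abs_of_nonneg (hφ0 y')]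
        have h5 := mul_le_mul (hφL y y') h3 (norm_nonneg _) (norm_nonneg _)
        have h6 := mul_le_mul (hφ1 y') h4 (norm_nonneg _) zero_le_one
        change _ ≤ (C * (1 + (‖x‖ + a)) + K) * _
        linarith
      continuousOn := fun _ _ => continuousOn_const
      norm_le := fun _ _ y _ => hcL y
      mul_max_le := by
        change C * (2 + R) * max (T - 0) (0 - -T) ≤ C * (2 + R) * T - 0
        simp }
  obtain ⟨α, h0, hα⟩ := hpl.exists_eq_forall_mem_Icc_hasDerivWithinAt₀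
  have hα' : ∀ s, |s| < T → HasDerivAt α (c (α s)) s := fun s hs =>
    (hα s (abs_le.1 hs.le)).hasDerivAt (Icc_mem_nhds (abs_lt.1 hs).1 (abs_lt.1 hs).2)
  have h0' : α 0 = x := h0
  refine ⟨α, h0', fun s hs => ?_⟩
  have h1 := Gend_gron (f := α) (f' := fun u => c (α u)) (C := C) (t := s)
    (fun u hu => hα' u (hu.trans_lt hs)) fun u _ => (hcb _).trans (hg _)
  have h2 : Real.exp (C * |s|) ≤ Real.exp (C * T) := Real.exp_le_exp.2 (mul_le_mul_of_nonneg_left hs.le hC)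
  have h3 : ‖α s‖ ≤ R := by
    rw [h0'] at h1
    have := mul_le_mul_of_nonneg_left h2 (show 0 ≤ 1 + ‖x‖ by positivity)
    linarith
  have h4 : φ (α s) = 1 := by
    simp only [φ]
    rw [min_eq_right (by linarith), max_eq_right zero_le_one]
  have h5 := hα' s hs
  simpa only [c, h4, one_smul] using h5

theorem Gend_global [CompleteSpace X] {V : X → X} {K : NNReal} (hK : LipschitzWith K V) (x : X) :
    ∃ α : ℝ → X, α 0 = x ∧ ∀ s, HasDerivAt α (V (α s)) s := by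
  have h : ∀ T : ℝ, ∃ α : ℝ → X, α 0 = x ∧ ∀ s, |s| < |T| + 1 → HasDerivAt α (V (α s)) s :=
    fun T => Gend_sol hK x (by positivity)
  choose α h0 hα using h
  have key : ∀ s T, |s| < |T| + 1 → α s s = α T s := fun s T hs => by
    have hm : 0 < min (|s| + 1) (|T| + 1) := by positivity
    refine ODE_solution_unique_of_mem_Ioo (v := fun _ => V) (s := fun _ => univ) (K := K)
      (a := -min (|s| + 1) (|T| + 1)) (b := min (|s| + 1) (|T| + 1)) (t₀ := 0) (fun _ _ => hK.lipschitzOnWith)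
      ⟨by linarith, hm⟩ (fun u hu => ⟨hα s u ((abs_lt.2 hu).trans_le (min_le_left _ _)), trivial⟩)
      (fun u hu => ⟨hα T u ((abs_lt.2 hu).trans_le (min_le_right _ _)), trivial⟩) ((h0 s).trans (h0 T).symm) ?_
    exact abs_lt.1 (lt_min (by linarith) hs)
  refine ⟨fun s => α s s, h0 0, fun s => ?_⟩
  refine (hα s s (by linarith)).congr_of_eventuallyEq ?_
  have : ∀ᶠ u in 𝓝 s, |u| < |s| + 1 := continuous_abs.continuousAt.eventually (gt_mem_nhds (by linarith))
  filter_upwards [this] with u hu using key u s hu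

/-- characteristics: `R203.exists_smooth_flow` for `V p = (1, b p)`; the first component of the flow is `p.1 + s` -/
theorem exists_char [CompleteSpace X] {b : ℝ × X → X} (hb : ContDiff ℝ ∞ b) {L : ℝ} (hL : ∀ p, ‖fderiv ℝ b p‖ ≤ L) (t : ℝ) (z : X) :
    ∃ γ : ℝ → X, γ t = z ∧ ∀ s, HasDerivAt γ (b (s, γ s)) s := by
  have hL' : LipschitzWith L.toNNReal b := lipschitzWith_of_nnnorm_fderiv_le (hb.differentiable (by simp))
    fun x => by simpa [← NNReal.coe_le_coe] using Or.inl (hL x)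
  obtain ⟨α, h0, hd⟩ := Gend_global (V := fun p : ℝ × X => ((1 : ℝ), b p)) ((LipschitzWith.const (1 : ℝ)).prodMk hL') (t, z)
  have h1 : ∀ s, (α s).1 = t + s := by
    intro s
    have hd1 : ∀ s, HasDerivAt (fun s => (α s).1 - s) 0 s := fun s => by
      have h3 : HasDerivAt (fun s => (α s).1) 1 s := (ContinuousLinearMap.fst ℝ ℝ X).hasFDerivAt.comp_hasDerivAt s (hd s)
      simpa using h3.fun_sub (hasDerivAt_id' s)
    have := is_const_of_deriv_eq_zero (fun s => (hd1 s).differentiableAt) (fun s => (hd1 s).deriv) s 0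
    simp only [h0, sub_zero] at this
    linarith
  refine ⟨fun s => (α (s - t)).2, by simp [h0], fun s => ?_⟩
  have h2 : HasDerivAt (fun s => (α s).2) (b (α (s - t))) (s - t) :=
    (ContinuousLinearMap.snd ℝ ℝ X).hasFDerivAt.comp_hasDerivAt (s - t) (hd (s - t))
  have h3 : α (s - t) = (s, (α (s - t)).2) := Prod.ext (by rw [h1]; ring) rfl
  rw [h3] at h2
  exact h2.comp_sub_const s t

/-- **transport estimate**: `gron` for `y s = dX k u (s, γ s)`, `trans_deriv` -/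
theorem trans_bd [CompleteSpace X] {b : ℝ × X → X} (hb : ContDiff ℝ ∞ b) {L : ℝ} (hL : ∀ p, ‖fderiv ℝ b p‖ ≤ L) (k : ℕ) {u h : ℝ × X → F}
    (hu : ContDiff ℝ ∞ u) (he : ∀ p, fderiv ℝ u p (1, b p) = h p) {α ψ : ℝ → ℝ} {t a : ℝ} (ht : 0 ≤ t) (hα : Continuous α)
    (hψ : Continuous ψ) (hα0 : ∀ s ∈ Icc 0 t, 0 ≤ α s) (hψ0 : ∀ s ∈ Icc 0 t, 0 ≤ ψ s) (ha : ∀ z, ‖dX k u (0, z)‖ ≤ a)
    (hs : ∀ s ∈ Icc 0 t, ∀ z, ‖dX k h (s, z)‖ + 2 ^ k * ∑ j ∈ Finset.range k, ‖dX (j + 1) b (s, z)‖ * ‖dX (k - j) u (s, z)‖ ≤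
      α s * ‖dX k u (s, z)‖ + ψ s) (z : X) :
    ‖dX k u (t, z)‖ ≤ Real.exp (∫ s in (0 : ℝ)..t, α s) * (a + ∫ s in (0 : ℝ)..t, ψ s) := by
  obtain ⟨γ, hγ, hd⟩ := exists_char hb hL t z
  have hy : ∀ s, HasDerivAt (fun s => dX k u (s, γ s)) (fderiv ℝ (dX k u) (s, γ s) (1, b (s, γ s))) s := fun s =>
    HasFDerivAt.comp_hasDerivAt (f := fun s => (s, γ s)) s
      (((contDiff_dX k hu).differentiable (by simp)) (s, γ s)).hasFDerivAt ((hasDerivAt_id' s).prodMk (hd s))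
  have h1 := gron ht hα hψ hα0 hψ0 hy fun s h => (trans_deriv hb k hu he _).trans (hs s h _)
  rw [hγ] at h1
  exact h1.trans (mul_le_mul_of_nonneg_left (add_le_add_left (ha _) _) (Real.exp_pos _).le)

end Trans

end Crest.Agent.R106.HR
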