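import Crest.Agent.R106.HR.Gen
import Crest.Agent.R106.TR.Cons

/-! R106/HR/Lin (owner helper81): momentum integrals, the linear system is closed under space derivatives and differences, `C^k` form of Glassey-Strauss -/

set_option autoImplicit false
set_option linter.unusedVariables false
set_option linter.unusedSectionVars false

noncomputable section

namespace Crest.Agent.R106.HR

open MeasureTheory Set Filter Topology Crest.AnalysisR.VecCalc3 Crest.AnalysisR.PDE.RVM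
open scoped ContDiff

section Iv
variable {F G : Type} [NormedAddCommGroup F] [NormedSpace ℝ F] [NormedAddCommGroup G] [NormedSpace ℝ G]

/-- momentum integral -/
def Iv (u : PZ → F) (q : PX) : F := ∫ v, u (q.1, q.2, v)
/-- vanishing for large momenta -/
def Sv (R : ℝ) (u : PZ → F) : Prop := ∀ p : PZ, R ≤ ‖p.2.2‖ → u p = 0
/-- `(t, x) ↦ (t, x, 0)` -/
def ix : PX →L[ℝ] PZ := (ContinuousLinearMap.fst ℝ ℝ R3).prod ((ContinuousLinearMap.inl ℝ R3 R3).comp (ContinuousLinearMap.snd ℝ ℝ R3))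
@[simp] theorem ix_apply (q : PX) : ix q = (q.1, q.2, 0) := rfl
/-- the volume of the momentum ball -/
def vB (R : ℝ) : ℝ := (volume (Metric.closedBall (0 : R3) R)).toReal

theorem vB_nonneg (R : ℝ) : 0 ≤ vB R := ENNReal.toReal_nonneg
theorem rho_eq (u : PZ → ℝ) : rho u = Iv u := rfl
theorem cur_eq (u : PZ → ℝ) : cur u = Iv fun p => u p • relVel p.2.2 := rfl

theorem norm_px : ‖px‖ ≤ 1 := by
  refine ContinuousLinearMap.opNorm_le_bound _ zero_le_one fun p => ?_
  rw [one_mul, px_apply]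
  exact max_le (norm_fst_le p) ((norm_fst_le p.2).trans (norm_snd_le p))

theorem norm_ix : ‖ix‖ ≤ 1 := by
  refine ContinuousLinearMap.opNorm_le_bound _ zero_le_one fun q => ?_
  rw [one_mul, ix_apply]
  refine max_le (norm_fst_le q) (max_le (norm_snd_le q) ?_)
  simp

theorem contDiff_relVel : ContDiff ℝ ∞ relVel := by
  have h1 : ContDiff ℝ ∞ fun v : R3 => 1 + ‖v‖ ^ 2 := contDiff_const.add (contDiff_norm_sq ℝ)
  have h2 : ContDiff ℝ ∞ fun v : R3 => Real.sqrt (1 + ‖v‖ ^ 2) := h1.sqrt fun v => by positivity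
  exact (h2.inv fun v => by positivity).smul contDiff_id

theorem norm_relVel_le (v : R3) : ‖relVel v‖ ≤ 1 := by
  have h1 : 0 < Real.sqrt (1 + ‖v‖ ^ 2) := by positivity
  have h2 : ‖v‖ ≤ Real.sqrt (1 + ‖v‖ ^ 2) := Real.le_sqrt_of_sq_le (by linarith)
  unfold relVel
  rw [norm_smul, norm_inv, Real.norm_of_nonneg h1.le, inv_mul_le_iff₀ h1, mul_one]
  exact h2

/-- a smooth compactly supported modification of `relVel` (multiply by a `ContDiffBump` with `rIn = |R| + 1`) -/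
theorem exists_ut (R : ℝ) : ∃ w : R3 → R3, ContDiff ℝ ∞ w ∧ HasCompactSupport w ∧ ∀ v, ‖v‖ ≤ R + 1 → w v = relVel v := by
  let b : ContDiffBump (0 : R3) := ⟨|R| + 1, |R| + 2, by positivity, by linarith⟩
  refine ⟨fun v => b v • relVel v, b.contDiff.smul contDiff_relVel, b.hasCompactSupport.smul_right, fun v hv => ?_⟩
  have : b v = 1 := b.one_of_mem_closedBall (by
    rw [mem_closedBall_zero_iff]
    exact hv.trans (by have := le_abs_self R; show R + 1 ≤ |R| + 1; linarith))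
  simp only [this, one_smul]

/-- `fderiv u` vanishes on the open set `R < ‖v‖` and is continuous; a point with `‖v‖ = R` is a limit of points `(t, x, v + s • e)`
(`e = v` if `v ≠ 0`, else any non-zero vector), `s → 0+` -/
theorem Sv.fder {R : ℝ} {u : PZ → F} (h : Sv R u) (hu : ContDiff ℝ ∞ u) : Sv R (fderiv ℝ u) := by
  have hc : Continuous (fderiv ℝ u) := hu.continuous_fderiv (by simp)
  have h1 : ∀ p : PZ, R < ‖p.2.2‖ → fderiv ℝ u p = 0 := by
    intro p hp
    have ho : IsOpen {p : PZ | R < ‖p.2.2‖} := isOpen_lt continuous_const (by fun_prop)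
    have he : u =ᶠ[𝓝 p] fun _ => 0 := by
      filter_upwards [ho.mem_nhds hp] with q hq
      exact h q (le_of_lt hq)
    rw [he.fderiv_eq]
    simp
  intro p hp
  obtain ⟨e, he⟩ : ∃ e : R3, ∀ s : ℝ, 0 < s → ‖p.2.2‖ < ‖p.2.2 + s • e‖ := by
    by_cases hv : p.2.2 = 0
    · refine ⟨ee 0, fun s hs => ?_⟩
      rw [hv, zero_add, norm_zero, norm_smul]
      have : ‖ee 0‖ = 1 := by simp [ee]
      rw [this, mul_one, Real.norm_of_nonneg hs.le]
      exact hs
    · refine ⟨p.2.2, fun s hs => ?_⟩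
      have h2 : p.2.2 + s • p.2.2 = (1 + s) • p.2.2 := by rw [add_smul, one_smul]
      have h3 : 0 < ‖p.2.2‖ := norm_pos_iff.2 hv
      rw [h2, norm_smul, Real.norm_of_nonneg (by linarith)]
      nlinarith
  have hγ : Continuous fun s : ℝ => fderiv ℝ u (p.1, p.2.1, p.2.2 + s • e) := hc.comp (by fun_prop)
  have h2 : Tendsto (fun s : ℝ => fderiv ℝ u (p.1, p.2.1, p.2.2 + s • e)) (𝓝[>] 0) (𝓝 (fderiv ℝ u p)) := by
    have := (hγ.tendsto 0).mono_left (nhdsWithin_le_nhds (s := Ioi 0))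
    simpa using this
  have h3 : Tendsto (fun s : ℝ => fderiv ℝ u (p.1, p.2.1, p.2.2 + s • e)) (𝓝[>] 0) (𝓝 0) := by
    refine tendsto_const_nhds.congr' ?_
    filter_upwards [self_mem_nhdsWithin] with s hs
    have hs' : (0 : ℝ) < s := hs
    have h4 : R < ‖p.2.2 + s • e‖ := lt_of_le_of_lt hp (he s hs')
    exact (h1 (p.1, p.2.1, p.2.2 + s • e) h4).symm
  exact tendsto_nhds_unique h2 h3

theorem linb_out {R : ℝ} {u : PZ → F} (h : Sv R u) (q : PX) (v : R3) (hv : v ∉ Metric.closedBall (0 : R3) R) :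
    u (q.1, q.2, v) = 0 := by
  refine h _ ?_
  rw [mem_closedBall_zero_iff, not_le] at hv
  exact hv.le

theorem Sv.integrable {R : ℝ} {u : PZ → F} (h : Sv R u) (hu : Continuous u) (q : PX) : Integrable fun v => u (q.1, q.2, v) := by
  refine Continuous.integrable_of_hasCompactSupport (hu.comp (by fun_prop)) ?_
  exact HasCompactSupport.intro (isCompact_closedBall (0 : R3) R) fun v hv => linb_out h q v hv

/-- `setIntegral_eq_integral_of_forall_compl_eq_zero` -/
theorem Sv.Iv_eq {R : ℝ} {u : PZ → F} (h : Sv R u) (q : PX) : Iv u q = ∫ v in Metric.closedBall (0 : R3) R, u (q.1, q.2, v) := by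
  exact (setIntegral_eq_integral_of_forall_compl_eq_zero fun v hv => linb_out h q v hv).symm

/-- `Sv.Iv_eq`, `norm_setIntegral_le_of_norm_le_const` -/
theorem Sv.norm_Iv {R M : ℝ} {u : PZ → F} (h : Sv R u) (q : PX) (hM : ∀ v, ‖u (q.1, q.2, v)‖ ≤ M) : ‖Iv u q‖ ≤ vB R * M := by
  rw [h.Iv_eq q, mul_comm]
  exact norm_setIntegral_le_of_norm_le_const measure_closedBall_lt_top fun v _ => hM v

/-- reassociation `((t, x), v) ↦ (t, x, v)` -/
def linb_as : (PX × R3) →L[ℝ] PZ := (ContinuousLinearEquiv.prodAssoc ℝ ℝ R3 R3 : (PX × R3) →L[ℝ] PZ)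

theorem linb_as_apply (z : PX × R3) : linb_as z = (z.1.1, z.1.2, z.2) := rfl

theorem linb_fin (R : ℝ) : IsFiniteMeasure (volume.restrict (Metric.closedBall (0 : R3) R)) :=
  isFiniteMeasure_restrict.2 measure_closedBall_lt_top.ne

theorem linb_ae (R : ℝ) : ∀ᵐ v ∂(volume.restrict (Metric.closedBall (0 : R3) R)), v ∈ Metric.closedBall (0 : R3) R :=
  ae_restrict_mem measurableSet_closedBall

theorem linb_fun {R : ℝ} {u : PZ → F} (h : Sv R u) :
    Iv u = fun q => ∫ v, (fun z : PX × R3 => u (linb_as z)) (q, v) ∂(volume.restrict (Metric.closedBall (0 : R3) R)) :=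
  funext fun q => h.Iv_eq q

/-- `Sv.Iv_eq`, `Wave.contDiff_int` (R106/Wave/Param) for `volume.restrict (closedBall 0 R)` -/
theorem Sv.contDiff_Iv {R : ℝ} {u : PZ → F} (h : Sv R u) (hu : ContDiff ℝ ∞ u) : ContDiff ℝ ∞ (Iv u) := by
  have := linb_fin R
  rw [linb_fun h]
  exact Wave.contDiff_int (n := ⊤) (isCompact_closedBall (0 : R3) R) (linb_ae R) (hu.comp linb_as.contDiff)

/-- `Wave.hasFDerivAt_int`, `Sv.Iv_eq` on both sides (`Sv.fder`) -/
theorem Sv.fderiv_Iv {R : ℝ} {u : PZ → F} (h : Sv R u) (hu : ContDiff ℝ ∞ u) (q : PX) :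
    fderiv ℝ (Iv u) q = Iv (fun p => (fderiv ℝ u p).comp ix) q := by
  have := linb_fin R
  have h2 : Sv R (fun p => (fderiv ℝ u p).comp ix) := fun p hp => by simp [h.fder hu p hp]
  have hF : ContDiff ℝ ∞ (fun z : PX × R3 => u (linb_as z)) := hu.comp linb_as.contDiff
  rw [h2.Iv_eq q, linb_fun h, (Wave.hasFDerivAt_int (isCompact_closedBall (0 : R3) R) (linb_ae R)
    (F := fun z : PX × R3 => u (linb_as z)) (p := q) fun v _ => (hF.of_le (by simp)).contDiffAt).fderiv]
  refine integral_congr_ae (Eventually.of_forall fun v => ?_)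
  have h3 : HasFDerivAt (fun z : PX × R3 => u (linb_as z)) ((fderiv ℝ u (linb_as (q, v))).comp linb_as) (q, v) :=
    ((hu.differentiable (by simp)) _).hasFDerivAt.comp (q, v) linb_as.hasFDerivAt
  simp only [h3.fderiv]
  exact ContinuousLinearMap.ext fun e => rfl

/-- `ContinuousLinearMap.integral_comp_comm` -/
theorem Sv.clm_Iv [CompleteSpace F] [CompleteSpace G] {R : ℝ} {u : PZ → F} (h : Sv R u) (hu : Continuous u) (L : F →L[ℝ] G) (q : PX) :
    L (Iv u q) = Iv (fun p => L (u p)) q := by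
  exact (L.integral_comp_comm (h.integrable hu q)).symm

theorem Sv.fderiv_Iv_apply [CompleteSpace F] {R : ℝ} {u : PZ → F} (h : Sv R u) (hu : ContDiff ℝ ∞ u) (q e : PX) :
    fderiv ℝ (Iv u) q e = Iv (fun p => fderiv ℝ u p (e.1, e.2, 0)) q := by
  have h2 : Sv R (fun p => (fderiv ℝ u p).comp ix) := fun p hp => by simp [h.fder hu p hp]
  have hc : Continuous fun p => (fderiv ℝ u p).comp ix :=
    (hu.continuous_fderiv (by simp)).clm_comp continuous_const
  rw [h.fderiv_Iv hu q]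
  exact h2.clm_Iv hc (ContinuousLinearMap.apply ℝ F e) q

theorem linc_sl {X : Type} [NormedAddCommGroup X] [NormedSpace ℝ X] {g : ℝ × X → F} (hg : ContDiff ℝ ∞ g) (t : ℝ) (e : X) :
    (fun x => fderiv ℝ (sl g t) x e) = sl (fun q => fderiv ℝ g q (0, e)) t := by
  funext x
  rw [fderiv_sl hg]
  rfl

theorem linc_norm {e : R3} (he : ‖e‖ ≤ 1) : ‖((e, 0) : Z6)‖ ≤ 1 := by
  simpa [Prod.norm_def] using he

/-- induction on `k` generalising `u`: `bd_of_dir`, `fderiv (sl (Iv u) t) x e = sl (Iv fun p => fderiv u p (0, e, 0)) t x` (`fderiv_sl`, `Sv.fderiv_Iv_apply`),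
`sl (fun p => fderiv u p (0, e, 0)) t = fun z => fderiv (sl u t) z (e, 0)`, `Bd.dir` -/
theorem Sv.bd_Iv [CompleteSpace F] {R M t : ℝ} (k : ℕ) {u : PZ → F} (h : Sv R u) (hu : ContDiff ℝ ∞ u) (hM : Bd k (sl u t) M) :
    Bd k (sl (Iv u) t) (vB R * M) := by

  induction k generalizing u with
  | zero => exact bd_zero_iff.2 fun x => h.norm_Iv (t, x) fun v => hM.norm_le (x, v)
  | succ k ih =>
    refine bd_of_dir (contDiff_sl (h.contDiff_Iv hu) t) (fun x => h.norm_Iv (t, x) fun v => hM.norm_le (x, v)) fun e he => ?_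
    have h1 : (fun x => fderiv ℝ (sl (Iv u) t) x e) = sl (Iv fun p => fderiv ℝ u p (0, e, 0)) t := by
      rw [linc_sl (h.contDiff_Iv hu)]
      exact funext fun x => h.fderiv_Iv_apply hu (t, x) (0, e)
    rw [h1]
    refine ih (fun p hp => by simp [h.fder hu p hp]) ((hu.fderiv_right (m := ∞) (by simp)).clm_apply contDiff_const) ?_
    rw [← linc_sl hu]
    exact hM.dir (contDiff_sl hu t) (linc_norm he)

end Iv

/-- space derivative of a function on phase space -/
def dz {F : Type} [NormedAddCommGroup F] [NormedSpace ℝ F] (e : R3) (u : PZ → F) (p : PZ) : F := fderiv ℝ u p (0, e, 0)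
/-- space derivative of a field -/
def dq (e : R3) (K : PX → K6) (q : PX) : K6 := fderiv ℝ K q (0, e)

theorem lind_swap {F : Type} [NormedAddCommGroup F] [NormedSpace ℝ F] {g : PZ → F} (hg : ContDiff ℝ ∞ g) (p w d : PZ) :
    HasDerivAt (fun s : ℝ => fderiv ℝ g (p + s • d) w) (fderiv ℝ (fun q => fderiv ℝ g q d) p w) 0 := by
  have hd : Differentiable ℝ (fderiv ℝ g) := (hg.fderiv_right (m := ∞) (by simp)).differentiable (by simp)
  have e1 : fderiv ℝ (fun q => fderiv ℝ g q d) p w = fderiv ℝ (fderiv ℝ g) p w d := by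
    rw [fderiv_clm_apply (hd p) (differentiableAt_const d)]; simp
  have e2 : fderiv ℝ (fderiv ℝ g) p w d = fderiv ℝ (fderiv ℝ g) p d w :=
    (hg.contDiffAt.isSymmSndFDerivAt (by simp only [minSmoothness_of_isRCLikeNormedField]; exact WithTop.coe_le_coe.2 le_top)).eq w d
  rw [e1, e2]
  have hc : HasDerivAt (fun s : ℝ => p + s • d) d 0 := by
    simpa using ((hasDerivAt_id (0 : ℝ)).smul_const d).const_add p
  have h1 : HasDerivAt (fun s : ℝ => fderiv ℝ g (p + s • d)) (fderiv ℝ (fderiv ℝ g) p d) 0 := by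
    have h2 : HasFDerivAt (fderiv ℝ g) (fderiv ℝ (fderiv ℝ g) p) (p + (0 : ℝ) • d) := by
      simpa using (hd p).hasFDerivAt
    exact h2.comp_hasDerivAt (0 : ℝ) hc
  simpa using h1.clm_apply (hasDerivAt_const (0 : ℝ) w)

/-- the Vlasov part of `Lin.dx`: differentiate `vl` at `p` in the direction `(0, e, 0)` (`relVel p.2.2` is constant in this direction; use the curve
`s ↦ p + s • (0, e, 0)`, or `fderiv_clm_apply`), symmetry of second derivatives -/
theorem Lin.dx_vl {R : ℝ} {u : PZ → ℝ} {H : PZ → R3} {K : PX → K6} (h : Lin R u H K) (e : R3) (p : PZ) :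
    fderiv ℝ (dz e u) p (1, relVel p.2.2, 0) + ∑ i, fderiv ℝ (dz e H) p (0, 0, ee i) i = 0 := by
  have h1 := lind_swap h.su p (1, relVel p.2.2, 0) (0, e, 0)
  have h2 : ∀ i : Fin 3, HasDerivAt (fun s : ℝ => fderiv ℝ H (p + s • ((0, e, 0) : PZ)) (0, 0, ee i) i)
      (fderiv ℝ (dz e H) p (0, 0, ee i) i) 0 := fun i =>
    (EuclideanSpace.proj (𝕜 := ℝ) i : R3 →L[ℝ] ℝ).hasFDerivAt.comp_hasDerivAt (0 : ℝ) (lind_swap h.sH p (0, 0, ee i) (0, e, 0))
  have h3 := h1.add (HasDerivAt.fun_sum (u := Finset.univ) fun i _ => h2 i)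
  have h4 : HasDerivAt (fun _ : ℝ => (0 : ℝ))
      (fderiv ℝ (dz e u) p (1, relVel p.2.2, 0) + ∑ i, fderiv ℝ (dz e H) p (0, 0, ee i) i) 0 := by
    refine h3.congr_of_eventuallyEq (Eventually.of_forall fun s => ?_)
    have := h.vl (p + s • ((0, e, 0) : PZ))
    simp only [Prod.snd_add, Prod.smul_snd, smul_zero, add_zero] at this
    exact this.symm
  exact h4.unique (hasDerivAt_const (0 : ℝ) (0 : ℝ))

theorem line_e_deriv {X F : Type} [NormedAddCommGroup X] [NormedSpace ℝ X] [NormedAddCommGroup F] [NormedSpace ℝ F]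
    {g : X → F} {q : X} (hg : DifferentiableAt ℝ g q) (w : X) :
    HasDerivAt (fun s : ℝ => g (q + s • w)) (fderiv ℝ g q w) 0 := by
  have h1 : HasDerivAt (fun s : ℝ => q + s • w) w 0 := by
    simpa using ((hasDerivAt_id (0 : ℝ)).smul_const w).const_add q
  exact HasFDerivAt.comp_hasDerivAt_of_eq (l := g) (f := fun s : ℝ => q + s • w) 0 hg.hasFDerivAt h1 (by simp)

/-- the Maxwell part of `Lin.dx`: `fderiv (dq e K) q w = fderiv (fun q => fderiv K q w) q (0, e)`; differentiate the three equations;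
`Sv.fderiv_Iv_apply` gives `fderiv (rho u) q (0, e) = rho (dz e u) q` and the same for `cur` -/
theorem Lin.dx_mx {R : ℝ} {u : PZ → ℝ} {H : PZ → R3} {K : PX → K6} (h : Lin R u H K) (e : R3) (q : PX) :
    MxL (fderiv ℝ (dq e K) q) (rho (dz e u) q) (cur (dz e u) q) := by
  have hsu : Sv R u := fun p hp => (h.supp p hp).1
  have hK2 : Differentiable ℝ (fderiv ℝ K) := (h.sK.fderiv_right (m := ∞) (by simp)).differentiable (by simp)
  have hsym := ((contDiff_infty.1 h.sK 2).contDiffAt (x := q)).isSymmSndFDerivAt (by simp)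
  have e1 : fderiv ℝ (dq e K) q = fderiv ℝ (fderiv ℝ K) q (0, e) := by
    have h1 := (ContinuousLinearMap.apply ℝ K6 ((0, e) : PX)).hasFDerivAt.comp q (hK2 q).hasFDerivAt
    have h2 : HasFDerivAt (dq e K) _ q := h1
    rw [h2.fderiv]
    refine ContinuousLinearMap.ext fun w => ?_
    simpa using hsym w (0, e)
  have hc : HasDerivAt (fun s : ℝ => fderiv ℝ K (q + s • ((0, e) : PX))) (fderiv ℝ (fderiv ℝ K) q (0, e)) 0 :=
    line_e_deriv (hK2 q) _
  have hap : ∀ w : PX, HasDerivAt (fun s : ℝ => fderiv ℝ K (q + s • ((0, e) : PX)) w)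
      (fderiv ℝ (fderiv ℝ K) q (0, e) w) 0 := fun w =>
    (ContinuousLinearMap.apply ℝ K6 w).hasFDerivAt.comp_hasDerivAt 0 hc
  have hρ : HasDerivAt (fun s : ℝ => rho u (q + s • ((0, e) : PX))) (rho (dz e u) q) 0 := by
    have h1 := line_e_deriv ((hsu.contDiff_Iv h.su).differentiable (by simp) q) ((0, e) : PX)
    rw [hsu.fderiv_Iv_apply h.su] at h1
    exact h1
  have hj : HasDerivAt (fun s : ℝ => cur u (q + s • ((0, e) : PX))) (cur (dz e u) q) 0 := by
    have hr : ContDiff ℝ ∞ fun p : PZ => relVel p.2.2 := contDiff_relVel.comp contDiff_snd.snd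
    have hs : ContDiff ℝ ∞ fun p : PZ => u p • relVel p.2.2 := h.su.smul hr
    have hsv : Sv R fun p : PZ => u p • relVel p.2.2 := fun p hp => by simp [hsu p hp]
    have h1 := line_e_deriv ((hsv.contDiff_Iv hs).differentiable (by simp) q) ((0, e) : PX)
    rw [hsv.fderiv_Iv_apply hs] at h1
    have e2 : (fun p : PZ => fderiv ℝ (fun p : PZ => u p • relVel p.2.2) p (0, e, 0))
        = fun p : PZ => dz e u p • relVel p.2.2 := by
      funext p
      have h2 := line_e_deriv (hs.differentiable (by simp) p) ((0, e, 0) : PZ)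
      have h3 := (line_e_deriv (h.su.differentiable (by simp) p) ((0, e, 0) : PZ)).smul_const (relVel p.2.2)
      refine h2.unique ?_
      simpa [dz] using h3
    simp only [e2] at h1
    exact h1
  have hp : ∀ (i : Fin 3) (L : K6 →L[ℝ] R3) (w : PX), HasDerivAt (fun s : ℝ => L (fderiv ℝ K (q + s • ((0, e) : PX)) w) i)
      (L (fderiv ℝ (fderiv ℝ K) q (0, e) w) i) 0 := fun i L w =>
    ((EuclideanSpace.proj i : R3 →L[ℝ] ℝ).comp L).hasFDerivAt.comp_hasDerivAt 0 (hap w)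
  rw [e1]
  refine ⟨?_, ?_, ?_⟩
  · refine (hap (1, 0)).unique ?_
    simp only [fun s : ℝ => (h.mx (q + s • ((0, e) : PX))).ev]
    exact (HasDerivAt.fun_sum fun i _ => (rot i).hasFDerivAt.comp_hasDerivAt 0 (hap (0, ee i))).sub
      (hj.prodMk (hasDerivAt_const 0 0))
  · refine (HasDerivAt.fun_sum fun i _ => hp i (ContinuousLinearMap.fst ℝ R3 R3) (0, ee i)).unique ?_
    simpa only [ContinuousLinearMap.coe_fst', fun s : ℝ => (h.mx (q + s • ((0, e) : PX))).dE] using hρ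
  · refine (HasDerivAt.fun_sum fun i _ => hp i (ContinuousLinearMap.snd ℝ R3 R3) (0, ee i)).unique ?_
    simpa only [ContinuousLinearMap.coe_snd', fun s : ℝ => (h.mx (q + s • ((0, e) : PX))).dB] using
      hasDerivAt_const (0 : ℝ) (0 : ℝ)

theorem Lin.dx {R : ℝ} {u : PZ → ℝ} {H : PZ → R3} {K : PX → K6} (h : Lin R u H K) (e : R3) : Lin R (dz e u) (dz e H) (dq e K) := by
  have hu : Sv R (fderiv ℝ u) := Sv.fder (fun p hp => (h.supp p hp).1) h.su
  have hH : Sv R (fderiv ℝ H) := Sv.fder (fun p hp => (h.supp p hp).2) h.sH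
  refine ⟨?_, ?_, ?_, fun p hp => ⟨?_, ?_⟩, h.dx_vl e, h.dx_mx e⟩
  · exact (h.su.fderiv_right (m := ∞) (by simp)).clm_apply contDiff_const
  · exact (h.sH.fderiv_right (m := ∞) (by simp)).clm_apply contDiff_const
  · exact (h.sK.fderiv_right (m := ∞) (by simp)).clm_apply contDiff_const
  · simp [dz, hu p hp]
  · simp [dz, hH p hp]

/-- `fderiv_fun_sub`, `integral_sub` (`Sv.integrable`) -/
theorem Lin.sub {R : ℝ} {u u' : PZ → ℝ} {H H' : PZ → R3} {K K' : PX → K6} (h : Lin R u H K) (h' : Lin R u' H' K') :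
    Lin R (fun p => u p - u' p) (fun p => H p - H' p) (fun q => K q - K' q) := by
  have du := h.su.differentiable (by simp)
  have du' := h'.su.differentiable (by simp)
  have dH := h.sH.differentiable (by simp)
  have dH' := h'.sH.differentiable (by simp)
  have dK := h.sK.differentiable (by simp)
  have dK' := h'.sK.differentiable (by simp)
  have s1 : Sv R u := fun p hp => (h.supp p hp).1
  have s2 : Sv R u' := fun p hp => (h'.supp p hp).1
  have cv : Continuous fun p : PZ => relVel p.2.2 := contDiff_relVel.continuous.comp (continuous_snd.comp continuous_snd)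
  have s3 : Sv R fun p => u p • relVel p.2.2 := fun p hp => by simp [s1 p hp]
  have s4 : Sv R fun p => u' p • relVel p.2.2 := fun p hp => by simp [s2 p hp]
  refine ⟨h.su.sub h'.su, h.sH.sub h'.sH, h.sK.sub h'.sK, fun p hp => ?_, fun p => ?_, fun q => ?_⟩
  · simp [(h.supp p hp).1, (h.supp p hp).2, (h'.supp p hp).1, (h'.supp p hp).2]
  · rw [fderiv_fun_sub (du p) (du' p), fderiv_fun_sub (dH p) (dH' p)]
    have a := h.vl p
    have b := h'.vl p
    simp only [_root_.sub_apply, PiLp.sub_apply, Finset.sum_sub_distrib]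
    linarith
  · have er : rho (fun p => u p - u' p) q = rho u q - rho u' q :=
      integral_sub (s1.integrable h.su.continuous q) (s2.integrable h'.su.continuous q)
    have ec : cur (fun p => u p - u' p) q = cur u q - cur u' q := by
      unfold cur
      simp only [sub_smul]
      exact integral_sub (s3.integrable (h.su.continuous.smul cv) q) (s4.integrable (h'.su.continuous.smul cv) q)
    rw [er, ec, fderiv_fun_sub (dK q) (dK' q)]
    have a := h.mx q
    have b := h'.mx q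
    refine ⟨?_, ?_, ?_⟩
    · simp only [_root_.sub_apply, map_sub, Finset.sum_sub_distrib]
      have e3 : ((cur u q - cur u' q, 0) : K6) = (cur u q, 0) - (cur u' q, 0) := by simp
      rw [a.ev, b.ev, e3]
      abel
    · simp only [_root_.sub_apply, Prod.fst_sub, PiLp.sub_apply, Finset.sum_sub_distrib]
      rw [a.dE, b.dE]
    · simp only [_root_.sub_apply, Prod.snd_sub, PiLp.sub_apply, Finset.sum_sub_distrib]
      rw [a.dB, b.dB, sub_zero]

theorem Pic.lin {R : ℝ} {A : PZ → K6 →L[ℝ] R3} {f₀ : Z6 → ℝ} {K₀ : R3 → K6} {f : ℕ → PZ → ℝ} {K : ℕ → PX → K6} (hA : Force R A)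
    (h : Pic R A f₀ K₀ f K) (n : ℕ) : Lin R (f n) (flx A (K n) (f n)) (K (n + 1)) :=
  ⟨h.sf n, TR.flx_smooth hA (h.sK n) (h.sf n), h.sK _, fun p hp => ⟨h.sv n p hp, by simp [flx, h.sv n p hp]⟩,
    fun p => TR.vl_flx hA (h.sK n) (h.sf n) p (h.vl n p), h.mx n⟩

/-- **Glassey-Strauss in `C^k`**: take `C` from `S_GS0`; induction on `k` generalising `u H K`: `bd_of_dir`, `Lin.dx`, `Bd.dir`,
`sl (dq e K) t = fun x => fderiv (sl K t) x e`, `sl (dz e u) t = fun z => fderiv (sl u t) z (e, 0)` (`fderiv_sl`) -/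
theorem gsk (h0 : S_GS0) (R T : ℝ) : ∃ C : ℝ, 0 ≤ C ∧ ∀ (k : ℕ) (u : PZ → ℝ) (H : PZ → R3) (K : PX → K6), Lin R u H K →
    ∀ (a : ℝ) (φ : ℝ → ℝ), Continuous φ → Bd (k + 1) (sl K 0) a → Bd k (sl u 0) a →
      ∀ t ∈ Icc 0 T, (∀ s ∈ Icc 0 t, Bd k (sl u s) (φ s) ∧ Bd k (sl H s) (φ s)) → Bd k (sl K t) (C * (a + ∫ s in (0 : ℝ)..t, φ s)) := by

  obtain ⟨C, hC, H0⟩ := h0 R T
  refine ⟨C, hC, fun k u H K h a φ hφ hK hu t ht hs => ?_⟩
  have base : ∀ {k : ℕ} {u : PZ → ℝ} {H : PZ → R3} {K : PX → K6}, Lin R u H K → Bd (k + 1) (sl K 0) a → Bd k (sl u 0) a →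
      (∀ s ∈ Icc 0 t, Bd k (sl u s) (φ s) ∧ Bd k (sl H s) (φ s)) → ∀ x, ‖sl K t x‖ ≤ C * (a + ∫ s in (0 : ℝ)..t, φ s) :=
    fun h hK hu hs => H0 _ _ _ h a φ hφ (hK.mono (by omega) le_rfl) (fun z => hu.norm_le z) t ht
      fun s hs' z => ⟨(hs s hs').1.norm_le z, (hs s hs').2.norm_le z⟩
  induction k generalizing u H K with
  | zero => exact bd_zero_iff.2 (base h hK hu hs)
  | succ k ih =>
    refine bd_of_dir (contDiff_sl h.sK t) (base h hK hu hs) fun e he => ?_
    have e1 : ∀ s, sl (dq e K) s = fun x => fderiv ℝ (sl K s) x e := fun s => (linc_sl h.sK s e).symm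
    have e2 : ∀ s, sl (dz e u) s = fun z => fderiv ℝ (sl u s) z (e, 0) := fun s => (linc_sl h.su s (e, 0)).symm
    have e3 : ∀ s, sl (dz e H) s = fun z => fderiv ℝ (sl H s) z (e, 0) := fun s => (linc_sl h.sH s (e, 0)).symm
    rw [← e1]
    refine ih _ _ _ (h.dx e) ?_ ?_ fun s hs' => ⟨?_, ?_⟩
    · rw [e1]; exact hK.dir (contDiff_sl h.sK 0) he
    · rw [e2]; exact hu.dir (contDiff_sl h.su 0) (linc_norm he)
    · rw [e2]; exact (hs s hs').1.dir (contDiff_sl h.su s) (linc_norm he)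
    · rw [e3]; exact (hs s hs').2.dir (contDiff_sl h.sH s) (linc_norm he)

/-- the time derivative of a field: `MxL.ev`, `norm_le_dt_dx`, `‖ee i‖ = 1`; `c = 1 + ∑ i, ‖rot i‖` -/
theorem exists_mx_norm : ∃ c : ℝ, 0 ≤ c ∧ ∀ (L : PX →L[ℝ] K6) (ρ : ℝ) (j : R3), MxL L ρ j →
    ‖L‖ ≤ c * ‖L.comp (ContinuousLinearMap.inr ℝ ℝ R3)‖ + ‖j‖ := by
  refine ⟨1 + ∑ i, ‖rot i‖, by positivity, fun L ρ j h => ?_⟩
  set N := ‖L.comp (ContinuousLinearMap.inr ℝ ℝ R3)‖ with hN
  have hN0 : 0 ≤ N := norm_nonneg _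
  have h1 : ∀ x : R3, ‖L (0, x)‖ ≤ N * ‖x‖ := fun x => (L.comp (ContinuousLinearMap.inr ℝ ℝ R3)).le_opNorm x
  have h2 : ‖L (1, 0)‖ ≤ (∑ i, ‖rot i‖) * N + ‖j‖ := by
    rw [h.ev]
    refine (norm_sub_le _ _).trans (add_le_add ?_ (by simp))
    rw [Finset.sum_mul]
    refine (norm_sum_le _ _).trans (Finset.sum_le_sum fun i _ => ?_)
    refine ((rot i).le_opNorm _).trans (mul_le_mul_of_nonneg_left ?_ (norm_nonneg _))
    have := h1 (ee i)
    rwa [show ‖ee i‖ = 1 by simp [ee], mul_one] at this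
  refine ContinuousLinearMap.opNorm_le_bound _ (by positivity) fun q => ?_
  have e : q = q.1 • ((1 : ℝ), (0 : R3)) + (0, q.2) := by ext <;> simp
  have h3 : ‖L q‖ ≤ ‖q.1‖ * ‖L (1, 0)‖ + N * ‖q.2‖ := by
    conv_lhs => rw [e, map_add, map_smul]
    exact (norm_add_le _ _).trans (add_le_add (norm_smul _ _).le (h1 _))
  have h4 := norm_fst_le q
  have h5 := norm_snd_le q
  have h6 : ‖q.1‖ * ‖L (1, 0)‖ ≤ ‖q‖ * ((∑ i, ‖rot i‖) * N + ‖j‖) :=
    mul_le_mul h4 h2 (norm_nonneg _) (norm_nonneg _)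
  have h7 : N * ‖q.2‖ ≤ N * ‖q‖ := mul_le_mul_of_nonneg_left h5 hN0
  nlinarith

end Crest.Agent.R106.HR
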