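import Crest.Agent.R106.HR.Rev
import Crest.Agent.R106.Lim

/-! R106/HR/Main (owner helper81): the limit of the Picard iteration -/

set_option autoImplicit false
set_option linter.unusedVariables false
set_option linter.unusedSectionVars false

noncomputable section

namespace Crest.Agent.R106.HR

open MeasureTheory Set Filter Topology Crest.AnalysisR.VecCalc3 Crest.AnalysisR.PDE.RVM
open scoped ContDiff

/-- geometric decay of consecutive differences gives a uniform Cauchy sequence -/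
theorem cauchy_of_geo {X F : Type} [NormedAddCommGroup F] {u : ℕ → X → F} {S : Set X} {M : ℝ}
    (h : ∀ n, ∀ x ∈ S, ‖u (n + 1) x - u n x‖ ≤ M * (1 / 2) ^ n) : UniformCauchySeqOn u atTop S := by
  have key : ∀ x ∈ S, ∀ N d : ℕ, ‖u (N + d) x - u N x‖ ≤ 2 * |M| * (1 / 2) ^ N - 2 * |M| * (1 / 2) ^ (N + d) := by
    intro x hx N d
    induction d with
    | zero => simp
    | succ d ih =>
      have h1 := (h (N + d) x hx).trans (mul_le_mul_of_nonneg_right (le_abs_self M) (by positivity))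
      have h2 := norm_sub_le_norm_sub_add_norm_sub (u (N + d + 1) x) (u (N + d) x) (u N x)
      rw [← add_assoc, pow_succ]
      linarith
  have key2 : ∀ x ∈ S, ∀ N m : ℕ, N ≤ m → ‖u m x - u N x‖ ≤ 2 * |M| * (1 / 2) ^ N := by
    intro x hx N m hm
    obtain ⟨d, rfl⟩ := Nat.exists_eq_add_of_le hm
    have : 0 ≤ 2 * |M| * (1 / 2 : ℝ) ^ (N + d) := by positivity
    linarith [key x hx N d]
  rw [Metric.uniformCauchySeqOn_iff]
  intro ε hε
  have ht : Tendsto (fun N : ℕ => 4 * |M| * (1 / 2 : ℝ) ^ N) atTop (𝓝 (4 * |M| * 0)) :=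
    (tendsto_pow_atTop_nhds_zero_of_lt_one (by norm_num) (by norm_num)).const_mul _
  rw [mul_zero] at ht
  obtain ⟨N, hN⟩ := (ht.eventually (gt_mem_nhds hε)).exists
  refine ⟨N, fun m hm n hn x hx => ?_⟩
  have h3 := dist_triangle_right (u m x) (u n x) (u N x)
  rw [dist_eq_norm (u m x) (u N x), dist_eq_norm (u n x) (u N x)] at h3
  linarith [key2 x hx N m hm, key2 x hx N n hn]

/-- the smooth limit on the slab -/
theorem lim_slab {X F : Type} [NormedAddCommGroup X] [NormedSpace ℝ X] [NormedAddCommGroup F] [NormedSpace ℝ F] [CompleteSpace F]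
    {u : ℕ → ℝ × X → F} {T M : ℝ} (hT : 0 < T) (hu : ∀ n, ContDiff ℝ ∞ (u n))
    (hb : ∀ k, ∃ M, ∀ n (p : ℝ × X), p.1 ∈ Icc (-T) T → ‖iteratedFDeriv ℝ k (u n) p‖ ≤ M)
    (hc : ∀ n (p : ℝ × X), p.1 ∈ Icc (-T) T → ‖u (n + 1) p - u n p‖ ≤ M * (1 / 2) ^ n) :
    ∃ g : ℝ × X → F, ContDiffOn ℝ ∞ g (Icc (-T) T ×ˢ univ) ∧ (∀ p : ℝ × X, |p.1| ≤ T → Tendsto (fun n => u n p) atTop (𝓝 (g p))) ∧
      (∀ p : ℝ × X, |p.1| < T → Tendsto (fun n => fderiv ℝ (u n) p) atTop (𝓝 (fderiv ℝ g p))) ∧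
      ∀ k, ∃ M, ∀ p : ℝ × X, |p.1| < T → ‖iteratedFDeriv ℝ k g p‖ ≤ M := by
  obtain ⟨g, hg, h0, h1, h2⟩ := Lim.smooth_limit (Lim.thick_slab (Z := X) (show -T < T by linarith)) hu
    (fun k => (hb k).imp fun M hM n p hp => hM n p hp.1) (cauchy_of_geo (M := M) fun n p hp => hc n p hp.1)
  have hm : ∀ p : ℝ × X, |p.1| ≤ T → p ∈ Icc (-T) T ×ˢ (univ : Set X) := fun p hp => ⟨abs_le.1 hp, trivial⟩
  have hn : ∀ p : ℝ × X, |p.1| < T → Icc (-T) T ×ˢ (univ : Set X) ∈ 𝓝 p := fun p hp =>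
    prod_mem_nhds (Icc_mem_nhds (abs_lt.1 hp).1 (abs_lt.1 hp).2) univ_mem
  refine ⟨g, hg, fun p hp => h0.tendsto_at (hm p hp), fun p hp => ?_, fun k => ?_⟩
  · rw [← fderivWithin_of_mem_nhds (hn p hp)]
    exact h1.tendsto_at (hm p hp.le)
  · obtain ⟨M', hM'⟩ := hb k
    refine ⟨M', fun p hp => ?_⟩
    rw [← iteratedFDerivWithin_univ, ← iteratedFDerivWithin_congr_set (Filter.eventuallyEq_univ.2 (hn p hp)) k]
    exact le_of_tendsto' ((h2 k).tendsto_at (hm p hp.le)).norm fun n => hM' n p (hm p hp.le).1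

/-- Maxwell's equations pass to the limit -/
theorem MxL.lim {L : ℕ → PX →L[ℝ] K6} {ρ : ℕ → ℝ} {j : ℕ → R3} {L' : PX →L[ℝ] K6} {ρ' : ℝ} {j' : R3} (h : ∀ n, MxL (L n) (ρ n) (j n))
    (hL : Tendsto L atTop (𝓝 L')) (hρ : Tendsto ρ atTop (𝓝 ρ')) (hj : Tendsto j atTop (𝓝 j')) : MxL L' ρ' j' := by
  have ha : ∀ w : PX, Tendsto (fun n => L n w) atTop (𝓝 (L' w)) := fun w =>
    ((ContinuousLinearMap.apply ℝ K6 w).continuous.tendsto L').comp hL
  have c1 : ∀ i : Fin 3, Continuous fun k : K6 => k.1 i := fun i => by fun_prop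
  have c2 : ∀ i : Fin 3, Continuous fun k : K6 => k.2 i := fun i => by fun_prop
  refine ⟨?_, ?_, ?_⟩
  · refine tendsto_nhds_unique (ha (1, 0)) ?_
    simp only [fun n => (h n).ev]
    exact (tendsto_finsetSum _ fun i _ => ((rot i).continuous.tendsto _).comp (ha (0, ee i))).sub
      (hj.prodMk_nhds tendsto_const_nhds)
  · refine tendsto_nhds_unique (tendsto_finsetSum _ fun i _ => ((c1 i).tendsto _).comp (ha (0, ee i))) ?_
    exact hρ.congr fun n => (h n).dE.symm
  · refine tendsto_nhds_unique (tendsto_finsetSum _ fun i _ => ((c2 i).tendsto _).comp (ha (0, ee i))) ?_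
    exact tendsto_const_nhds.congr fun n => (h n).dB.symm

/-- dominated convergence for momentum integrals -/
theorem tendsto_Iv {F : Type} [NormedAddCommGroup F] [NormedSpace ℝ F] {R M : ℝ} {u : ℕ → PZ → F} {g : PZ → F} {q : PX}
    (hs : ∀ n, Sv R (u n)) (hc : ∀ n, Continuous (u n)) (hM : ∀ n v, ‖u n (q.1, q.2, v)‖ ≤ M)
    (hl : ∀ v, Tendsto (fun n => u n (q.1, q.2, v)) atTop (𝓝 (g (q.1, q.2, v)))) : Tendsto (fun n => Iv (u n) q) atTop (𝓝 (Iv g q)) := by
  have hq : Continuous fun v : R3 => ((q.1, q.2, v) : PZ) := continuous_const.prodMk (continuous_const.prodMk continuous_id)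
  have hm : ∀ n, AEStronglyMeasurable (fun v : R3 => u n (q.1, q.2, v)) volume := fun n =>
    ((hc n).comp hq).aestronglyMeasurable
  unfold Iv
  refine tendsto_integral_of_dominated_convergence ((Metric.closedBall (0 : R3) R).indicator fun _ => M) hm ?_
    (fun n => ae_of_all _ fun v => ?_) (ae_of_all _ hl)
  · exact (integrable_indicator_iff measurableSet_closedBall).2
      (integrableOn_const measure_closedBall_lt_top.ne)
  · by_cases hv : v ∈ Metric.closedBall (0 : R3) R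
    · rw [indicator_of_mem hv]
      exact hM n v
    · have hR : R ≤ ‖v‖ := (not_le.1 fun h => hv (mem_closedBall_zero_iff.2 h)).le
      rw [indicator_of_notMem hv, hs n (q.1, q.2, v) hR, norm_zero]

theorem s_conv (h0 : S_GS0) (h1 : S_LOG) : S_CONV := by
  intro R T A f₀ K₀ f K hT hA hD h
  have hG := h.good h0 h1 hA hD T
  obtain ⟨Mf, hMf⟩ := hG.cf
  obtain ⟨MK, hMK⟩ := hG.cK
  obtain ⟨g, g1, g2, g3, -⟩ := lim_slab (M := Mf) hT h.sf hG.bf fun n p hp => hMf n p hp
  obtain ⟨L, L1, L2, L3, L4⟩ := lim_slab hT h.sK hG.bK hMK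
  have hz : ∀ p : PZ, |p.1| ≤ T → (∀ n, f n p = 0) → g p = 0 := fun p hp hf =>
    tendsto_nhds_unique (g2 p hp) (by simp only [hf]; exact tendsto_const_nhds)
  refine ⟨g, L, ⟨g1, L1, fun z => ?_, fun x => ?_, fun p hp => ?_, fun p hp hv => hz p hp fun n => h.sv n p hv,
    fun p hp hx => hz p hp fun n => h.sx n p hx, fun hn p hp => ge_of_tendsto' (g2 p hp) fun n => h.nn hn n p,
    fun q hq => ?_, L4⟩, L2⟩
  · refine tendsto_nhds_unique (g2 (0, z) (by simpa using hT.le)) ?_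
    simp only [h.df]; exact tendsto_const_nhds
  · refine tendsto_nhds_unique ((tendsto_add_atTop_iff_nat 1).2 (L2 (0, x) (by simpa using hT.le))) ?_
    simp only [h.dK]; exact tendsto_const_nhds
  · have a1 : Tendsto (fun n => vf A (K n) p) atTop (𝓝 (vf A L p)) :=
      tendsto_const_nhds.prodMk_nhds (((A p).continuous.tendsto _).comp (L2 (px p) hp.le))
    have a2 : Tendsto (fun n => fderiv ℝ (f n) p (1, vf A (K n) p)) atTop (𝓝 (fderiv ℝ g p (1, vf A L p))) :=
      ((isBoundedBilinearMap_apply (𝕜 := ℝ) (E := PZ) (F := ℝ)).continuous.tendsto (_, _)).comp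
        ((g3 p hp).prodMk_nhds (tendsto_const_nhds.prodMk_nhds a1))
    refine tendsto_nhds_unique a2 ?_
    simp only [h.vl]; exact tendsto_const_nhds
  · obtain ⟨M, hM⟩ := hG.bf 0
    have hq' : q.1 ∈ Icc (-T) T := abs_le.1 hq.le
    have hb : ∀ n v, ‖f n (q.1, q.2, v)‖ ≤ M := fun n v => by simpa using hM n (q.1, q.2, v) hq'
    refine MxL.lim (fun n => h.mx n q) ((tendsto_add_atTop_iff_nat 1).2 (L3 q hq)) ?_ ?_
    · exact tendsto_Iv (R := R) (M := M) (fun n => h.sv n) (fun n => (h.sf n).continuous) hb fun v => g2 (q.1, q.2, v) hq.le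
    · refine tendsto_Iv (R := R) (M := M) (u := fun n p => f n p • relVel p.2.2) (g := fun p => g p • relVel p.2.2)
        (fun n p hp => by simp only [h.sv n p hp, zero_smul])
        (fun n => (h.sf n).continuous.smul (contDiff_relVel.continuous.comp (continuous_snd.comp continuous_snd)))
        (fun n v => ?_) fun v => (g2 (q.1, q.2, v) hq.le).smul_const _
      rw [norm_smul]
      exact (mul_le_of_le_one_right (norm_nonneg _) (norm_relVel_le v)).trans (hb n v)

end Crest.Agent.R106.HR
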