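import Crest.Agent.R106.HR.Time

/-! R106/HR/Rev (owner helper81): time reversal `f (-t, x, -v)`, `E (-t, x)`, `-B (-t, x)` -/

set_option autoImplicit false
set_option linter.unusedVariables false
set_option linter.unusedSectionVars false

noncomputable section

namespace Crest.Agent.R106.HR

open MeasureTheory Set Filter Topology Crest.AnalysisR.VecCalc3 Crest.AnalysisR.PDE.RVM
open scoped ContDiff

/-- `(x, v) ↦ (x, -v)`, also `(E, B) ↦ (E, -B)` -/
def rv6 : Z6 →L[ℝ] Z6 := (ContinuousLinearMap.fst ℝ R3 R3).prod (-ContinuousLinearMap.snd ℝ R3 R3)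
/-- `(t, x, v) ↦ (-t, x, -v)` -/
def rvZ : PZ →L[ℝ] PZ := (-ContinuousLinearMap.fst ℝ ℝ Z6).prod (rv6.comp (ContinuousLinearMap.snd ℝ ℝ Z6))
/-- `(t, x) ↦ (-t, x)` -/
def rvX : PX →L[ℝ] PX := (-ContinuousLinearMap.fst ℝ ℝ R3).prod (ContinuousLinearMap.snd ℝ ℝ R3)
@[simp] theorem rv6_apply (z : Z6) : rv6 z = (z.1, -z.2) := rfl
@[simp] theorem rvZ_apply (p : PZ) : rvZ p = (-p.1, p.2.1, -p.2.2) := rfl
@[simp] theorem rvX_apply (q : PX) : rvX q = (-q.1, q.2) := rfl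
theorem norm_rv6 (z : Z6) : ‖rv6 z‖ = ‖z‖ := by simp [Prod.norm_def]
theorem norm_rvZ (p : PZ) : ‖rvZ p‖ = ‖p‖ := by simp [Prod.norm_def]
theorem norm_rvX (q : PX) : ‖rvX q‖ = ‖q‖ := by simp [Prod.norm_def]
theorem opNorm_rv6 : ‖rv6‖ ≤ 1 := ContinuousLinearMap.opNorm_le_bound _ zero_le_one fun z => by rw [norm_rv6, one_mul]
theorem opNorm_rvZ : ‖rvZ‖ ≤ 1 := ContinuousLinearMap.opNorm_le_bound _ zero_le_one fun z => by rw [norm_rvZ, one_mul]
theorem opNorm_rvX : ‖rvX‖ ≤ 1 := ContinuousLinearMap.opNorm_le_bound _ zero_le_one fun z => by rw [norm_rvX, one_mul]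

/-- the reversed force -/
def rA (A : PZ → K6 →L[ℝ] R3) (p : PZ) : K6 →L[ℝ] R3 := (A (rvZ p)).comp rv6
/-- the reversed density -/
def rf (u : PZ → ℝ) (p : PZ) : ℝ := u (rvZ p)
/-- the reversed field -/
def rK (K : PX → K6) (q : PX) : K6 := rv6 (K (rvX q))

variable {R T : ℝ} {A : PZ → K6 →L[ℝ] R3} {f₀ : Z6 → ℝ} {K₀ : R3 → K6} {f : ℕ → PZ → ℝ} {K : ℕ → PX → K6}

theorem reva_rvZ (p : PZ) : rvZ (rvZ p) = p := by simp

theorem reva_fderiv (hA : ContDiff ℝ ∞ A) (p e : PZ) (k : K6) :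
    fderiv ℝ (rA A) p e k = fderiv ℝ A (rvZ p) (rvZ e) (rv6 k) := by
  have h1 : HasFDerivAt (rA A) ((((ContinuousLinearMap.compL ℝ K6 K6 R3).flip rv6).comp (fderiv ℝ A (rvZ p))).comp rvZ) p :=
    (((ContinuousLinearMap.compL ℝ K6 K6 R3).flip rv6).hasFDerivAt.comp (rvZ p)
      (hA.differentiable (by simp) _).hasFDerivAt).comp p rvZ.hasFDerivAt
  rw [h1.fderiv]
  rfl

/-- compact support: `rvZ` is an involution, hence a homeomorphism (`HasCompactSupport.comp_homeomorph` or `HasCompactSupport.intro` with the image);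
`fderiv (rA A) p e k = fderiv A (rvZ p) (rvZ e) (rv6 k)`, `rvZ (0, 0, ee i) = -(0, 0, ee i)` -/
theorem Force.rev (h : Force R A) : Force R (rA A) := by
  refine ⟨(h.sm.comp rvZ.contDiff).clm_comp contDiff_const, ?_, fun p hp => ?_, fun p k => ?_⟩
  · refine HasCompactSupport.intro (K := rvZ '' tsupport A) (h.cs.isCompact.image rvZ.continuous) fun p hp => ?_
    have : A (rvZ p) = 0 := image_eq_zero_of_notMem_tsupport fun hm => hp ⟨rvZ p, hm, reva_rvZ p⟩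
    rw [rA, this, ContinuousLinearMap.zero_comp]
  · rw [rA, h.supp (rvZ p) (by simpa using hp), ContinuousLinearMap.zero_comp]
  · have e : ∀ i, rvZ ((0 : ℝ), (0 : R3), ee i) = -((0 : ℝ), (0 : R3), ee i) := fun i => by simp
    simp only [reva_fderiv h.sm, e, map_neg, ContinuousLinearMap.neg_apply, PiLp.neg_apply, Finset.sum_neg_distrib,
      h.dv, neg_zero]

/-- `Bd.clm`, `integral_neg_eq_self`, `fderiv (rv6 ∘ K₀) x e = rv6 (fderiv K₀ x e)` -/
theorem Dat.rev (h : Dat R f₀ K₀) : Dat R (fun z => f₀ (rv6 z)) fun x => rv6 (K₀ x) := by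
  have hd : ∀ x e, fderiv ℝ (fun x => rv6 (K₀ x)) x e = rv6 (fderiv ℝ K₀ x e) := fun x e => by
    have h1 : HasFDerivAt (fun x => rv6 (K₀ x)) (rv6.comp (fderiv ℝ K₀ x)) x :=
      rv6.hasFDerivAt.comp x (h.sK.differentiable (by simp) _).hasFDerivAt
    rw [h1.fderiv]
    rfl
  refine ⟨h.sf.comp rv6.contDiff, rv6.contDiff.comp h.sK, fun z hz => h.supp _ (by simpa using hz), fun k => ?_,
    fun x => ?_, fun x => ?_⟩
  · obtain ⟨M, hM⟩ := h.bK k
    exact ⟨_, hM.clm h.sK rv6⟩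
  · simp only [hd]
    simp only [rv6_apply, h.dE]
    exact (integral_neg_eq_self (fun v => f₀ (x, v)) volume).symm
  · simp only [hd]
    simp only [rv6_apply, PiLp.neg_apply, Finset.sum_neg_distrib, h.dB, neg_zero]

theorem relVel_neg (v : R3) : relVel (-v) = -relVel v := by
  simp [relVel]

/-- `integral_neg_eq_self` -/
theorem rho_rf (u : PZ → ℝ) (q : PX) : rho (rf u) q = rho u (rvX q) := by
  simp only [rho, rf, rvZ_apply, rvX_apply]
  exact integral_neg_eq_self (fun v => u (-q.1, q.2, v)) volume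

theorem cur_rf (u : PZ → ℝ) (q : PX) : cur (rf u) q = -cur u (rvX q) := by
  simp only [cur, rf, rvZ_apply, rvX_apply]
  rw [← integral_neg, ← integral_neg_eq_self (fun v => -(u (-q.1, q.2, v) • relVel v)) volume]
  simp [relVel_neg]

/-- `rvX (1, 0) = -(1, 0)`, `rvX (0, e) = (0, e)`, `rot_apply`; `cross3 (ee i) (-a) = -cross3 (ee i) a` (`crL` is linear) -/
theorem MxL.rev {L : PX →L[ℝ] K6} {ρ : ℝ} {j : R3} (h : MxL L ρ j) : MxL (rv6.comp (L.comp rvX)) ρ (-j) := by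
  have e1 : rvX ((1 : ℝ), (0 : R3)) = -((1 : ℝ), (0 : R3)) := by simp
  have e2 : ∀ i, rvX ((0 : ℝ), ee i) = ((0 : ℝ), ee i) := fun i => by simp
  have e3 : ∀ i k, rot i (rv6 k) = -rv6 (rot i k) := fun i k => by
    simp [rot_apply, ← crL_apply]
  refine ⟨?_, ?_, ?_⟩
  · simp only [ContinuousLinearMap.comp_apply, e1, e2, e3, map_neg, h.ev, map_sub, map_sum, Finset.sum_neg_distrib]
    have : rv6 (j, 0) = -(-j, (0 : R3)) := by simp
    rw [this]
    abel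
  · simp only [ContinuousLinearMap.comp_apply, e2, rv6_apply, h.dE]
  · simp only [ContinuousLinearMap.comp_apply, e2, rv6_apply, PiLp.neg_apply, Finset.sum_neg_distrib, h.dB, neg_zero]

theorem revb_rv6 (z : Z6) : rv6 (rv6 z) = z := by simp
theorem revb_rvZ (p : PZ) : rvZ (rvZ p) = p := by simp
theorem revb_rvX (q : PX) : rvX (rvX q) = q := by simp

theorem revb_sf {u : PZ → ℝ} (hu : ContDiff ℝ ∞ u) : ContDiff ℝ ∞ (rf u) := hu.comp rvZ.contDiff

theorem revb_sK {L : PX → K6} (hL : ContDiff ℝ ∞ L) : ContDiff ℝ ∞ (rK L) :=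
  rv6.contDiff.comp (hL.comp rvX.contDiff)

theorem revb_fderiv_rf {u : PZ → ℝ} (hu : ContDiff ℝ ∞ u) (p : PZ) :
    fderiv ℝ (rf u) p = (fderiv ℝ u (rvZ p)).comp rvZ :=
  (((hu.differentiable (by simp)) (rvZ p)).hasFDerivAt.comp p rvZ.hasFDerivAt).fderiv

theorem revb_fderiv_rK {L : PX → K6} (hL : ContDiff ℝ ∞ L) (q : PX) :
    fderiv ℝ (rK L) q = rv6.comp ((fderiv ℝ L (rvX q)).comp rvX) :=
  (rv6.hasFDerivAt.comp q (((hL.differentiable (by simp)) (rvX q)).hasFDerivAt.comp q rvX.hasFDerivAt)).fderiv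

theorem revb_vf (L : PX → K6) (p : PZ) :
    rvZ ((1 : ℝ), vf (rA A) (rK L) p) = -((1 : ℝ), vf A L (rvZ p)) := by
  have e : rvX (px p) = px (rvZ p) := rfl
  simp only [vf, rA, rK, ContinuousLinearMap.comp_apply, revb_rv6, e]
  simp only [rvZ_apply, relVel_neg, Prod.neg_mk, neg_neg]

/-- chain rule; `rvZ (1, vf (rA A) (rK K) p) = -(1, vf A K (rvZ p))`; `MxL.rev`, `rho_rf`, `cur_rf` -/
theorem Pic.rev (h : Pic R A f₀ K₀ f K) :
    Pic R (rA A) (fun z => f₀ (rv6 z)) (fun x => rv6 (K₀ x)) (fun n => rf (f n)) fun n => rK (K n) := by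
  refine ⟨fun n => revb_sf (h.sf n), fun n => revb_sK (h.sK n), ?_, fun n z => ?_, fun n x => ?_, fun n p => ?_,
    fun n p hp => ?_, fun n p hp => ?_, fun h0 n p => ?_, fun n q => ?_⟩
  · funext q
    simp only [rK, h.K0, Pi.zero_apply, map_zero]
  · have := h.df n (rv6 z)
    simp only [rf, rvZ_apply, neg_zero]
    simpa using this
  · have := h.dK n x
    simp only [rK, rvX_apply, neg_zero, this]
  · rw [revb_fderiv_rf (h.sf n), ContinuousLinearMap.comp_apply, revb_vf, map_neg, h.vl, neg_zero]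
  · exact h.sv n (rvZ p) (by simpa using hp)
  · exact h.sx n (rvZ p) (by simpa using hp)
  · refine h.nn (fun z => ?_) n (rvZ p)
    have := h0 (rv6 z)
    rwa [revb_rv6] at this
  · rw [revb_fderiv_rK (h.sK (n + 1)), rho_rf, cur_rf]
    exact (h.mx n (rvX q)).rev

theorem revb_iter {X Y F : Type} [NormedAddCommGroup X] [NormedSpace ℝ X] [NormedAddCommGroup Y] [NormedSpace ℝ Y]
    [NormedAddCommGroup F] [NormedSpace ℝ F] {g : X → F} (hg : ContDiff ℝ ∞ g) (L : Y →L[ℝ] X) (hL : ‖L‖ ≤ 1) (j : ℕ) (y : Y) :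
    ‖iteratedFDeriv ℝ j (g ∘ L) y‖ ≤ ‖iteratedFDeriv ℝ j g (L y)‖ := by
  have hj' : (j : WithTop ℕ∞) ≤ ∞ := by exact_mod_cast le_top
  rw [L.iteratedFDeriv_comp_right hg y hj']
  refine (ContinuousMultilinearMap.norm_compContinuousLinearMap_le _ _).trans ?_
  have h1 : ∏ _i : Fin j, ‖L‖ ≤ 1 := Finset.prod_le_one (fun _ _ => norm_nonneg _) fun _ _ => hL
  exact mul_le_of_le_one_right (norm_nonneg _) h1

theorem revb_iter' {X F G : Type} [NormedAddCommGroup X] [NormedSpace ℝ X] [NormedAddCommGroup G] [NormedSpace ℝ G]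
    [NormedAddCommGroup F] [NormedSpace ℝ F] {g : X → F} (hg : ContDiff ℝ ∞ g) (L : F →L[ℝ] G) (hL : ‖L‖ ≤ 1) (j : ℕ) (x : X) :
    ‖iteratedFDeriv ℝ j (L ∘ g) x‖ ≤ ‖iteratedFDeriv ℝ j g x‖ := by
  have hj' : (j : WithTop ℕ∞) ≤ ∞ := by exact_mod_cast le_top
  rw [L.iteratedFDeriv_comp_left (x := x) hg.contDiffAt hj']
  exact (L.norm_compContinuousMultilinearMap_le _).trans (mul_le_of_le_one_left (norm_nonneg _) hL)

/-- `f n = rf (f n) ∘ rvZ`, `K n = rv6 ∘ rK (K n) ∘ rvX`; `ContinuousLinearMap.iteratedFDeriv_comp_right`, `ContinuousLinearMap.iteratedFDeriv_comp_left` -/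
theorem Good.of_rev (hf : ∀ n, ContDiff ℝ ∞ (f n)) (hK : ∀ n, ContDiff ℝ ∞ (K n))
    (h : Good (Icc 0 T) (fun n => rf (f n)) fun n => rK (K n)) : Good (Icc (-T) 0) f K := by
  have hm : ∀ t : ℝ, t ∈ Icc (-T) 0 → -t ∈ Icc 0 T := fun t ht => ⟨by linarith [ht.2], by linarith [ht.1]⟩
  have ef : ∀ n, f n = rf (f n) ∘ rvZ := fun n => by
    funext p; simp only [Function.comp, rf, revb_rvZ]
  have eK : ∀ n, K n = rv6 ∘ (rK (K n) ∘ rvX) := fun n => by
    funext q; simp only [Function.comp, rK, revb_rvX, revb_rv6]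
  refine ⟨fun k => ?_, fun k => ?_, ?_, ?_⟩
  · obtain ⟨M, hM⟩ := h.bf k
    refine ⟨M, fun n p hp => ?_⟩
    rw [ef n]
    exact (revb_iter (revb_sf (hf n)) rvZ opNorm_rvZ k p).trans (hM n (rvZ p) (hm _ hp))
  · obtain ⟨M, hM⟩ := h.bK k
    refine ⟨M, fun n q hq => ?_⟩
    rw [eK n]
    exact (revb_iter' ((revb_sK (hK n)).comp rvX.contDiff) rv6 opNorm_rv6 k q).trans
      ((revb_iter (revb_sK (hK n)) rvX opNorm_rvX k q).trans (hM n (rvX q) (hm _ hq)))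
  · obtain ⟨M, hM⟩ := h.cf
    refine ⟨M, fun n p hp => ?_⟩
    have := hM n (rvZ p) (hm _ hp)
    simpa only [rf, revb_rvZ] using this
  · obtain ⟨M, hM⟩ := h.cK
    refine ⟨M, fun n q hq => ?_⟩
    have := hM n (rvX q) (hm _ hq)
    simp only [rK, revb_rvX] at this
    rwa [← map_sub, norm_rv6] at this

theorem Good.union (h : Good (Icc (-T) 0) f K) (h' : Good (Icc 0 T) f K) : Good (Icc (-T) T) f K := by
  have hm : ∀ t : ℝ, t ∈ Icc (-T) T → t ∈ Icc (-T) 0 ∨ t ∈ Icc 0 T := fun t ht =>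
    (le_total t 0).imp (fun h => ⟨ht.1, h⟩) fun h => ⟨h, ht.2⟩
  have hp : ∀ (a b : ℝ) (n : ℕ), a * (1 / 2 : ℝ) ^ n ≤ max a b * (1 / 2) ^ n := fun a b n =>
    mul_le_mul_of_nonneg_right (le_max_left _ _) (by positivity)
  have hp' : ∀ (a b : ℝ) (n : ℕ), b * (1 / 2 : ℝ) ^ n ≤ max a b * (1 / 2) ^ n := fun a b n =>
    mul_le_mul_of_nonneg_right (le_max_right _ _) (by positivity)
  refine ⟨fun k => ?_, fun k => ?_, ?_, ?_⟩
  · obtain ⟨M, hM⟩ := h.bf k
    obtain ⟨M', hM'⟩ := h'.bf k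
    exact ⟨max M M', fun n p hp => (hm _ hp).elim (fun e => (hM n p e).trans (le_max_left _ _))
      fun e => (hM' n p e).trans (le_max_right _ _)⟩
  · obtain ⟨M, hM⟩ := h.bK k
    obtain ⟨M', hM'⟩ := h'.bK k
    exact ⟨max M M', fun n p hp => (hm _ hp).elim (fun e => (hM n p e).trans (le_max_left _ _))
      fun e => (hM' n p e).trans (le_max_right _ _)⟩
  · obtain ⟨M, hM⟩ := h.cf
    obtain ⟨M', hM'⟩ := h'.cf
    exact ⟨max M M', fun n p hq => (hm _ hq).elim (fun e => (hM n p e).trans (hp _ _ n))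
      fun e => (hM' n p e).trans (hp' _ _ n)⟩
  · obtain ⟨M, hM⟩ := h.cK
    obtain ⟨M', hM'⟩ := h'.cK
    exact ⟨max M M', fun n p hq => (hm _ hq).elim (fun e => (hM n p e).trans (hp _ _ n))
      fun e => (hM' n p e).trans (hp' _ _ n)⟩

theorem Pic.good (h0 : S_GS0) (h1 : S_LOG) (hA : Force R A) (hD : Dat R f₀ K₀) (h : Pic R A f₀ K₀ f K) (T : ℝ) :
    Good (Icc (-T) T) f K :=
  (Good.of_rev h.sf h.sK (h.rev.good_pos h0 h1 hA.rev hD.rev T)).union (h.good_pos h0 h1 hA hD T)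

end Crest.Agent.R106.HR
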