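import Crest.Agent.R106.HR.Unif

/-! R106/HR/Time (owner helper81): time derivatives from the equations -/

set_option autoImplicit false
set_option linter.unusedVariables false
set_option linter.unusedSectionVars false

noncomputable section

namespace Crest.Agent.R106.HR

open MeasureTheory Set Filter Topology Crest.AnalysisR.VecCalc3 Crest.AnalysisR.PDE.RVM
open scoped ContDiff

section W
variable {X : Type} [NormedAddCommGroup X] [NormedSpace ℝ X]

/-- smooth families with uniform bounds of all space derivatives for `t ∈ I` -/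
def SB {F : Type} [NormedAddCommGroup F] [NormedSpace ℝ F] (I : Set ℝ) (u : ℕ → ℝ × X → F) : Prop :=
  (∀ n, ContDiff ℝ ∞ (u n)) ∧ ∀ k, ∃ M, ∀ n, ∀ t ∈ I, Bd k (sl (u n) t) M

/-- `m` space-time derivatives and then all space derivatives are uniformly bounded -/
def W (I : Set ℝ) : ℕ → ∀ {F : Type} [NormedAddCommGroup F] [NormedSpace ℝ F], (ℕ → ℝ × X → F) → Prop
  | 0, _, _, _, u => SB I u
  | m + 1, _, _, _, u => SB I u ∧ W I m fun n => fderiv ℝ (u n)

variable {E F G : Type} [NormedAddCommGroup E] [NormedSpace ℝ E] [NormedAddCommGroup F] [NormedSpace ℝ F] [NormedAddCommGroup G] [NormedSpace ℝ G]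
  {I : Set ℝ}

theorem W_zero {u : ℕ → ℝ × X → F} : W I 0 u ↔ SB I u := Iff.rfl
theorem W_succ {m : ℕ} {u : ℕ → ℝ × X → F} : W I (m + 1) u ↔ SB I u ∧ W I m fun n => fderiv ℝ (u n) := Iff.rfl
theorem W.sb {m : ℕ} {u : ℕ → ℝ × X → F} (h : W I m u) : SB I u := by
  cases m
  · exact h
  · exact h.1

theorem SB.clm {u : ℕ → ℝ × X → F} (h : SB I u) (L : F →L[ℝ] G) : SB I fun n p => L (u n p) := by
  refine ⟨fun n => L.contDiff.comp (h.1 n), fun k => ?_⟩
  obtain ⟨M, hM⟩ := h.2 k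
  exact ⟨‖L‖ * M, fun n t ht => (hM n t ht).clm (contDiff_sl (h.1 n) t) L⟩

theorem SB.add {u g : ℕ → ℝ × X → F} (h : SB I u) (h' : SB I g) : SB I fun n p => u n p + g n p := by
  refine ⟨fun n => (h.1 n).add (h'.1 n), fun k => ?_⟩
  obtain ⟨M, hM⟩ := h.2 k
  obtain ⟨M', hM'⟩ := h'.2 k
  exact ⟨M + M', fun n t ht => Bd.add (contDiff_sl (h.1 n) t) (contDiff_sl (h'.1 n) t) (hM n t ht) (hM' n t ht)⟩

theorem SB.bilin {u : ℕ → ℝ × X → E} {g : ℕ → ℝ × X → F} (h : SB I u) (h' : SB I g) (B : E →L[ℝ] F →L[ℝ] G) :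
    SB I fun n p => B (u n p) (g n p) := by
  refine ⟨fun n => (B.contDiff.comp (h.1 n)).clm_apply (h'.1 n), fun k => ?_⟩
  obtain ⟨M, hM⟩ := h.2 k
  obtain ⟨M', hM'⟩ := h'.2 k
  exact ⟨‖B‖ * 2 ^ k * M * M', fun n t ht =>
    Bd.bilin B (contDiff_sl (h.1 n) t) (contDiff_sl (h'.1 n) t) (hM n t ht) (hM' n t ht)⟩

/-- `sl_d1`, `bd_succ_iff` -/
theorem SB.d1 {u : ℕ → ℝ × X → F} (h : SB I u) : SB I fun n => d1 (u n) := by
  refine ⟨fun n => contDiff_d1 (h.1 n), fun k => ?_⟩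
  obtain ⟨M, hM⟩ := h.2 (k + 1)
  refine ⟨M, fun n t ht => ?_⟩
  rw [sl_d1 (h.1 n)]
  exact (bd_succ_iff.1 (hM n t ht)).2

/-- induction on `m` generalising `F`, `u` -/
theorem W.pred {m : ℕ} {u : ℕ → ℝ × X → F} (h : W I (m + 1) u) : W I m u := by
  induction m generalizing F with
  | zero => exact h.1
  | succ m ih => exact ⟨h.1, ih h.2⟩

/-- induction on `m` generalising `F`, `u` -/
theorem W.reindex {m : ℕ} {u : ℕ → ℝ × X → F} (h : W I m u) (σ : ℕ → ℕ) : W I m fun n => u (σ n) := by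
  have key : ∀ {F : Type} [NormedAddCommGroup F] [NormedSpace ℝ F] {u : ℕ → ℝ × X → F}, SB I u → SB I fun n => u (σ n) :=
    fun h => ⟨fun n => h.1 _, fun k => (h.2 k).imp fun M hM n => hM _⟩
  induction m generalizing F with
  | zero => exact key h
  | succ m ih => exact ⟨key h.1, ih h.2⟩

/-- add a zero member in front of a family (induction on `m`; `bd_zero_fun`, `Bd.nonneg`; the derivative of `0` is `0`) -/
theorem W.of_succ {m : ℕ} {u : ℕ → ℝ × X → F} (h0 : u 0 = 0) (h : W I m fun n => u (n + 1)) : W I m u := by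
  have key : ∀ {F : Type} [NormedAddCommGroup F] [NormedSpace ℝ F] {u : ℕ → ℝ × X → F}, u 0 = 0 →
      (SB I fun n => u (n + 1)) → SB I u := by
    intro F _ _ u h0 h
    refine ⟨fun n => ?_, fun k => ?_⟩
    · cases n with
      | zero => rw [h0]; exact contDiff_const
      | succ n => exact h.1 n
    · obtain ⟨M, hM⟩ := h.2 k
      refine ⟨M, fun n t ht => ?_⟩
      cases n with
      | zero => rw [h0]; exact bd_zero_fun k (hM 0 t ht).nonneg
      | succ n => exact hM n t ht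
  induction m generalizing F with
  | zero => exact key h0 h
  | succ m ih =>
    refine ⟨key h0 h.1, ih ?_ h.2⟩
    rw [h0]
    exact fderiv_const 0

/-- induction on `m` generalising `F G u L`: `fderiv (L ∘ u) = (ContinuousLinearMap.compL ℝ _ F G L) (fderiv u)` -/
theorem W.clm {m : ℕ} {u : ℕ → ℝ × X → F} (h : W I m u) (L : F →L[ℝ] G) : W I m fun n p => L (u n p) := by
  induction m generalizing F G with
  | zero => exact SB.clm h L
  | succ m ih =>
    refine ⟨h.1.clm L, ?_⟩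
    have e : (fun n => fderiv ℝ fun p => L (u n p))
        = fun n p => ContinuousLinearMap.compL ℝ (ℝ × X) F G L (fderiv ℝ (u n) p) := by
      funext n p
      exact (L.hasFDerivAt.comp p ((h.1.1 n).differentiable (by simp) p).hasFDerivAt).fderiv
    rw [e]
    exact ih h.2 _

theorem W.add {m : ℕ} {u g : ℕ → ℝ × X → F} (h : W I m u) (h' : W I m g) : W I m fun n p => u n p + g n p := by
  induction m generalizing F with
  | zero => exact SB.add h h'
  | succ m ih =>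
    refine ⟨h.1.add h'.1, ?_⟩
    have e : (fun n => fderiv ℝ fun p => u n p + g n p)
        = fun n p => fderiv ℝ (u n) p + fderiv ℝ (g n) p := by
      funext n p
      exact fderiv_fun_add ((h.1.1 n).differentiable (by simp) p) ((h'.1.1 n).differentiable (by simp) p)
    rw [e]
    exact ih h.2 h'.2

theorem timeb_zero (m : ℕ) : W I m fun (_ : ℕ) (_ : ℝ × X) => (0 : F) := by
  have h0 : ∀ {F : Type} [NormedAddCommGroup F] [NormedSpace ℝ F], SB I fun (_ : ℕ) (_ : ℝ × X) => (0 : F) :=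
    ⟨fun _ => contDiff_const, fun k => ⟨0, fun _ t _ => bd_zero_fun k le_rfl⟩⟩
  induction m generalizing F with
  | zero => exact h0
  | succ m ih =>
    refine ⟨h0, ?_⟩
    have e : (fun (_ : ℕ) => fderiv ℝ fun (_ : ℝ × X) => (0 : F)) = fun _ _ => 0 := by
      funext n p
      simp
    rw [e]
    exact ih

theorem W.sum {ι : Type} (s : Finset ι) {m : ℕ} {u : ι → ℕ → ℝ × X → F} (h : ∀ i ∈ s, W I m (u i)) : W I m fun n p => ∑ i ∈ s, u i n p := by
  classical
  induction s using Finset.induction_on with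
  | empty => simpa using timeb_zero m
  | insert a s ha ih =>
    simp only [Finset.sum_insert ha]
    exact (h a (Finset.mem_insert_self a s)).add (ih fun i hi => h i (Finset.mem_insert_of_mem hi))

/-- induction on `m` generalising all types: `ContinuousLinearMap.fderiv_of_bilinear` (`B.precompR`, `B.precompL`), `W.pred`, `W.add` -/
theorem W.bilin {m : ℕ} {u : ℕ → ℝ × X → E} {g : ℕ → ℝ × X → F} (h : W I m u) (h' : W I m g) (B : E →L[ℝ] F →L[ℝ] G) :
    W I m fun n p => B (u n p) (g n p) := by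
  induction m generalizing E F G with
  | zero => exact SB.bilin h h' B
  | succ m ih =>
    refine ⟨h.1.bilin h'.1 B, ?_⟩
    have e : (fun n => fderiv ℝ fun p => B (u n p) (g n p))
        = fun n p => B.precompR (ℝ × X) (u n p) (fderiv ℝ (g n) p) + B.precompL (ℝ × X) (fderiv ℝ (u n) p) (g n p) := by
      funext n p
      exact B.fderiv_of_bilinear ((h.1.1 n).differentiable (by simp) p) ((h'.1.1 n).differentiable (by simp) p)
    rw [e]
    exact (ih h.pred h'.2 _).add (ih h.2 h'.pred _)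

/-- NO loss for space derivatives: induction on `m` generalising `F`, `u`; by `fderiv_d1`, `fderiv (d1 u) p = flip (d1 (fderiv u) p)`
(`ContinuousLinearMap.flipₗᵢ`), then `W.clm` -/
theorem W.d1 {m : ℕ} {u : ℕ → ℝ × X → F} (h : W I m u) : W I m fun n => d1 (u n) := by
  induction m generalizing F with
  | zero => exact SB.d1 h
  | succ m ih =>
    refine ⟨SB.d1 h.1, ?_⟩
    have h2 := (ih h.2).clm (G := ℝ × X →L[ℝ] X →L[ℝ] F)
      (ContinuousLinearMap.flipₗᵢ ℝ X (ℝ × X) F).toContinuousLinearEquiv.toContinuousLinearMap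
    have e : (fun n => fderiv ℝ (HR.d1 (u n))) = fun n p =>
        (ContinuousLinearMap.flipₗᵢ ℝ X (ℝ × X) F).toContinuousLinearEquiv.toContinuousLinearMap (HR.d1 (fderiv ℝ (u n)) p) := by
      funext n p
      refine ContinuousLinearMap.ext fun w => ContinuousLinearMap.ext fun e => ?_
      rw [fderiv_d1 (h.1.1 n)]
      rfl
    rw [e]
    exact h2

/-- a fixed function with all derivatives bounded (induction on `m` generalising `F`, `g`; `Bd.sl`, `bd_succ_iff`) -/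
theorem W.const {m : ℕ} {g : ℝ × X → F} (hg : ContDiff ℝ ∞ g) (hb : ∀ k, ∃ M, Bd k g M) : W I m fun _ => g := by
  have key : ∀ {F : Type} [NormedAddCommGroup F] [NormedSpace ℝ F] {g : ℝ × X → F}, ContDiff ℝ ∞ g →
      (∀ k, ∃ M, Bd k g M) → SB I fun _ => g :=
    fun hg hb => ⟨fun _ => hg, fun k => (hb k).imp fun M hM _ t _ => hM.sl hg t⟩
  induction m generalizing F with
  | zero => exact key hg hb
  | succ m ih =>
    exact ⟨key hg hb, ih (hg.fderiv_right (by simp)) fun k => (hb (k + 1)).imp fun M hM => (bd_succ_iff.1 hM).2⟩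

/-- `fderiv u p = (fst).smulRight (fderiv u p (1, 0)) + (d1 u p).comp snd`; both are continuous linear in `fderiv u p (1, 0)`, `d1 u p`
(`ContinuousLinearMap.smulRightL`, `(ContinuousLinearMap.compL ..).flip`); `W.d1`, `W.clm`, `W.add` -/
theorem W.succ {m : ℕ} {u : ℕ → ℝ × X → F} (h : W I m u) (ht : W I m fun n p => fderiv ℝ (u n) p (1, 0)) : W I (m + 1) u := by
  refine ⟨h.sb, ?_⟩
  have h1 := ht.clm (ContinuousLinearMap.smulRightL ℝ (ℝ × X) F (ContinuousLinearMap.fst ℝ ℝ X))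
  have h2 := h.d1.clm ((ContinuousLinearMap.compL ℝ (ℝ × X) X F).flip (ContinuousLinearMap.snd ℝ ℝ X))
  have e : (fun n => fderiv ℝ (u n)) = fun n p =>
      ContinuousLinearMap.smulRightL ℝ (ℝ × X) F (ContinuousLinearMap.fst ℝ ℝ X) (fderiv ℝ (u n) p (1, 0)) +
        (ContinuousLinearMap.compL ℝ (ℝ × X) X F).flip (ContinuousLinearMap.snd ℝ ℝ X) (HR.d1 (u n) p) := by
    funext n p
    refine ContinuousLinearMap.ext fun w => ?_
    have hw : w = w.1 • ((1 : ℝ), (0 : X)) + (0, w.2) := by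
      ext <;> simp
    have : fderiv ℝ (u n) p w = w.1 • fderiv ℝ (u n) p (1, 0) + fderiv ℝ (u n) p (0, w.2) := by
      conv_lhs => rw [hw]
      rw [map_add, map_smul]
    rw [this]
    rfl
  rw [e]
  exact h1.add h2

/-- induction on `m` generalising `F`, `u`: `norm_iteratedFDeriv_fderiv`, `Bd.norm_le` -/
theorem W.bound {m : ℕ} {u : ℕ → ℝ × X → F} (h : W I m u) : ∃ M, ∀ n (p : ℝ × X), p.1 ∈ I → ‖iteratedFDeriv ℝ m (u n) p‖ ≤ M := by
  induction m generalizing F with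
  | zero =>
    obtain ⟨M, hM⟩ := h.2 0
    refine ⟨M, fun n p hp => ?_⟩
    rw [norm_iteratedFDeriv_zero]
    exact (hM n p.1 hp).norm_le p.2
  | succ m ih =>
    obtain ⟨M, hM⟩ := ih h.2
    exact ⟨M, fun n p hp => norm_iteratedFDeriv_fderiv.symm.trans_le (hM n p hp)⟩

/-- induction on `m` generalising `F`, `u`: `sl (u ∘ px) t = sl u t ∘ fst` (`Bd.comp`), `fderiv (u ∘ px) p = (fderiv u (px p)).comp px`, `W.clm` -/
theorem W.px {m : ℕ} {u : ℕ → PX → F} (h : W I m u) : W I m fun n (p : PZ) => u n (px p) := by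
  have hsb : ∀ {F : Type} [NormedAddCommGroup F] [NormedSpace ℝ F] {u : ℕ → PX → F}, SB I u →
      SB I fun n (p : PZ) => u n (HR.px p) := by
    intro F _ _ u h
    refine ⟨fun n => (h.1 n).comp HR.px.contDiff, fun k => ?_⟩
    obtain ⟨M, hM⟩ := h.2 k
    exact ⟨M, fun n t ht => Bd.comp (contDiff_sl (h.1 n) t) (hM n t ht) (ContinuousLinearMap.fst ℝ R3 R3)
      (ContinuousLinearMap.norm_fst_le ℝ R3 R3)⟩
  induction m generalizing F with
  | zero => exact hsb h
  | succ m ih =>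
    refine ⟨hsb h.1, ?_⟩
    have e : (fun n => fderiv ℝ fun p : PZ => u n (HR.px p)) = fun n (p : PZ) =>
        (ContinuousLinearMap.compL ℝ PZ PX F).flip HR.px (fderiv ℝ (u n) (HR.px p)) := by
      funext n p
      exact (((h.1.1 n).differentiable (by simp) (HR.px p)).hasFDerivAt.comp p HR.px.hasFDerivAt).fderiv
    rw [e]
    exact (ih h.2).clm _

/-- induction on `m` generalising `F`, `u`: `Sv.bd_Iv`, `Sv.contDiff_Iv`, `Sv.fderiv_Iv`, `Sv.fder`, `W.clm` -/
theorem W.Iv [CompleteSpace F] {R : ℝ} {m : ℕ} {u : ℕ → PZ → F} (h : W I m u) (hs : ∀ n, Sv R (u n)) : W I m fun n => Iv (u n) := by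
  have hsb : ∀ {F : Type} [NormedAddCommGroup F] [NormedSpace ℝ F] [CompleteSpace F] {u : ℕ → PZ → F}, SB I u →
      (∀ n, Sv R (u n)) → SB I fun n => HR.Iv (u n) := by
    intro F _ _ _ u h hs
    refine ⟨fun n => (hs n).contDiff_Iv (h.1 n), fun k => ?_⟩
    obtain ⟨M, hM⟩ := h.2 k
    exact ⟨vB R * M, fun n t ht => (hs n).bd_Iv k (h.1 n) (hM n t ht)⟩
  induction m generalizing F with
  | zero => exact hsb h hs
  | succ m ih =>
    refine ⟨hsb h.1 hs, ?_⟩
    have e : (fun n => fderiv ℝ (HR.Iv (u n))) = fun n => HR.Iv fun p =>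
        (ContinuousLinearMap.compL ℝ PX PZ F).flip ix (fderiv ℝ (u n) p) := by
      funext n q
      exact (hs n).fderiv_Iv (h.1.1 n) q
    rw [e]
    refine ih (W.clm h.2 _) fun n p hp => ?_
    show (ContinuousLinearMap.compL ℝ PX PZ F).flip ix (fderiv ℝ (u n) p) = 0
    rw [(hs n).fder (h.1.1 n) p hp, map_zero]

end W

variable {R T : ℝ} {A : PZ → K6 →L[ℝ] R3} {f₀ : Z6 → ℝ} {K₀ : R3 → K6} {f : ℕ → PZ → ℝ} {K : ℕ → PX → K6} {I : Set ℝ}

/-- `(t, x, v) ↦ v` -/
def timee_pv : PZ →L[ℝ] R3 := (ContinuousLinearMap.snd ℝ R3 R3).comp (ContinuousLinearMap.snd ℝ ℝ Z6)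

theorem timee_pv_norm : ‖timee_pv‖ ≤ 1 :=
  ContinuousLinearMap.opNorm_le_bound _ zero_le_one fun p => by
    rw [one_mul]
    exact (norm_snd_le p.2).trans (norm_snd_le p)

theorem timee_W_w {w : R3 → R3} (hw : Ut R w) (m : ℕ) : W I m fun (_ : ℕ) (p : PZ) => w p.2.2 := by
  refine W.const (g := fun p : PZ => w (timee_pv p)) (hw.sm.comp timee_pv.contDiff) fun k => ?_
  obtain ⟨M, hM⟩ := bd_of_cs hw.sm hw.cs k
  exact ⟨M, hM.comp hw.sm timee_pv timee_pv_norm⟩

/-- `fderiv (f n) p (1, 0) = -(d1 (f n) p) (vt w A (K n) p)` (`Pic.vt`); `vt = inl (w v) + inr (A p (K (px p)))`; `W.const` (`bd_of_cs`; `Bd.comp` for `p ↦ w p.2.2`),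
`W.px`, `W.bilin` with `ContinuousLinearMap.id`, `W.d1`, `W.succ` -/
theorem Pic.W_f (hA : Force R A) (h : Pic R A f₀ K₀ f K) {m : ℕ} (hf : W I m f) (hK : W I m K) : W I (m + 1) f := by
  obtain ⟨w, hw⟩ := exists_Ut R
  refine hf.succ ?_
  have hA' : W I m fun (_ : ℕ) => A := W.const hA.sm fun k => bd_of_cs hA.sm hA.cs k
  have hfo : W I m fun n (p : PZ) => A p (K n (px p)) :=
    hA'.bilin hK.px (ContinuousLinearMap.id ℝ (K6 →L[ℝ] R3))
  have hvt : W I m fun n (p : PZ) => ContinuousLinearMap.inl ℝ R3 R3 (w p.2.2) + ContinuousLinearMap.inr ℝ R3 R3 (A p (K n (px p))) :=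
    ((timee_W_w hw m).clm (ContinuousLinearMap.inl ℝ R3 R3)).add (hfo.clm (ContinuousLinearMap.inr ℝ R3 R3))
  have key := (hf.d1.bilin hvt (ContinuousLinearMap.id ℝ (Z6 →L[ℝ] ℝ))).clm (-ContinuousLinearMap.id ℝ ℝ)
  convert key using 3 with n p
  have h1 := h.vt hw n p
  have h2 : ((1 : ℝ), HR.vt w A (K n) p) = ((1 : ℝ), (0 : Z6)) + ((0 : ℝ), HR.vt w A (K n) p) := by simp
  rw [h2, map_add] at h1
  have h3 : ContinuousLinearMap.inl ℝ R3 R3 (w p.2.2) + ContinuousLinearMap.inr ℝ R3 R3 (A p (K n (px p))) = HR.vt w A (K n) p := by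
    simp [HR.vt, fo]
  rw [h3]
  simp only [ContinuousLinearMap.neg_apply, ContinuousLinearMap.id_apply, d1, ContinuousLinearMap.comp_apply,
    ContinuousLinearMap.inr_apply]
  linarith

/-- `W.of_succ` (`K 0 = 0`), `W.succ`, `W.reindex`; `fderiv (K (n + 1)) q (1, 0) = ∑ i, rot i (d1 (K (n + 1)) q (ee i)) - (cur (f n) q, 0)` (`Pic.mx`);
`cur (f n) = Iv fun p => f n p • w p.2.2` (`exists_Ut`, `Pic.sv`), `W.Iv`, `W.bilin` with `lsmul`, `W.sum`, `W.clm` -/
theorem Pic.W_K (hA : Force R A) (h : Pic R A f₀ K₀ f K) {m : ℕ} (hf : W I m f) (hK : W I m K) : W I (m + 1) K := by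
  obtain ⟨w, hw⟩ := exists_Ut R
  refine W.of_succ h.K0 ?_
  have hK1 : W I m fun n => K (n + 1) := hK.reindex fun n => n + 1
  refine hK1.succ ?_
  have hu : W I m fun n (p : PZ) => f n p • w p.2.2 := hf.bilin (timee_W_w hw m) (ContinuousLinearMap.lsmul ℝ ℝ)
  have hs : ∀ n, Sv R fun p : PZ => f n p • w p.2.2 := fun n p hp => by simp [h.sv n p hp]
  have hI := hu.Iv hs
  have hc : ∀ n, cur (f n) = HR.Iv fun p : PZ => f n p • w p.2.2 := by
    intro n
    rw [cur_eq]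
    congr 1
    funext p
    by_cases hp : R ≤ ‖p.2.2‖
    · simp [h.sv n p hp]
    · rw [hw.eq _ (by linarith [not_le.1 hp])]
  have hsum : W I m fun n (q : PX) => ∑ i : Fin 3, rot i (d1 (K (n + 1)) q (ee i)) :=
    W.sum Finset.univ (u := fun i n (q : PX) => rot i (d1 (K (n + 1)) q (ee i))) fun i _ =>
      (hK1.d1.clm (ContinuousLinearMap.apply ℝ K6 (ee i))).clm (rot i)
  have key := hsum.add (hI.clm (-ContinuousLinearMap.inl ℝ R3 R3))
  convert key using 3 with n q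
  rw [(h.mx n q).ev, hc n]
  simp only [ContinuousLinearMap.neg_apply, d1, ContinuousLinearMap.comp_apply, ContinuousLinearMap.inr_apply,
    ContinuousLinearMap.inl_apply, sub_eq_add_neg]

/-- uniform bounds of all derivatives and geometric convergence for `t ∈ I` -/
structure Good (I : Set ℝ) (f : ℕ → PZ → ℝ) (K : ℕ → PX → K6) : Prop where
  bf : ∀ k, ∃ M, ∀ n (p : PZ), p.1 ∈ I → ‖iteratedFDeriv ℝ k (f n) p‖ ≤ M
  bK : ∀ k, ∃ M, ∀ n (q : PX), q.1 ∈ I → ‖iteratedFDeriv ℝ k (K n) q‖ ≤ M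
  cf : ∃ M, ∀ n (p : PZ), p.1 ∈ I → |f (n + 1) p - f n p| ≤ M * (1 / 2) ^ n
  cK : ∃ M, ∀ n (q : PX), q.1 ∈ I → ‖K (n + 1) q - K n q‖ ≤ M * (1 / 2) ^ n

theorem Pic.good_pos (h0 : S_GS0) (h1 : S_LOG) (hA : Force R A) (hD : Dat R f₀ K₀) (h : Pic R A f₀ K₀ f K) (T : ℝ) :
    Good (Icc 0 T) f K := by
  have hW : ∀ m, W (Icc 0 T) m f ∧ W (Icc 0 T) m K := by
    intro m
    induction m with
    | zero =>
      refine ⟨⟨h.sf, fun k => ?_⟩, ⟨h.sK, fun k => ?_⟩⟩
      · obtain ⟨M, hM⟩ := h.unif_x h0 h1 hA hD T k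
        exact ⟨M, fun n t ht => (hM n t ht).1⟩
      · obtain ⟨M, hM⟩ := h.unif_x h0 h1 hA hD T k
        exact ⟨M, fun n t ht => (hM n t ht).2⟩
    | succ m ih => exact ⟨h.W_f hA ih.1 ih.2, h.W_K hA ih.1 ih.2⟩
  obtain ⟨M, hM⟩ := h.geo h0 h1 hA hD T
  exact ⟨fun k => (hW k).1.bound, fun k => (hW k).2.bound, ⟨M, fun n p hp => (hM n p.1 hp).1 p.2⟩,
    ⟨M, fun n q hq => (hM n q.1 hq).2 q.2⟩⟩

end Crest.Agent.R106.HR
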