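import Crest.Agent.R106.HR.Lin

/-! R106/HR/Unif (owner helper81): uniform bounds of all SPACE derivatives of the Picard iterates on `[0, T]` -/

set_option autoImplicit false
set_option linter.unusedVariables false
set_option linter.unusedSectionVars false

noncomputable section

namespace Crest.Agent.R106.HR

open MeasureTheory Set Filter Topology Crest.AnalysisR.VecCalc3 Crest.AnalysisR.PDE.RVM
open scoped ContDiff

/-- a smooth compactly supported modification of `relVel` -/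
structure Ut (R : ℝ) (w : R3 → R3) : Prop where
  sm : ContDiff ℝ ∞ w
  cs : HasCompactSupport w
  eq : ∀ v, ‖v‖ ≤ R + 1 → w v = relVel v

theorem exists_Ut (R : ℝ) : ∃ w, Ut R w := by
  obtain ⟨w, h1, h2, h3⟩ := exists_ut R
  exact ⟨w, h1, h2, h3⟩

/-- the force -/
def fo (A : PZ → K6 →L[ℝ] R3) (K : PX → K6) (p : PZ) : R3 := A p (K (px p))
/-- the modified vector field -/
def vt (w : R3 → R3) (A : PZ → K6 →L[ℝ] R3) (K : PX → K6) (p : PZ) : Z6 := (w p.2.2, fo A K p)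

variable {R T : ℝ} {A : PZ → K6 →L[ℝ] R3} {f₀ : Z6 → ℝ} {K₀ : R3 → K6} {f : ℕ → PZ → ℝ} {K : ℕ → PX → K6} {w : R3 → R3}

theorem flx_eq (L : PX → K6) (g : PZ → ℝ) : flx A L g = fun p => g p • fo A L p := rfl

theorem contDiff_fo (hA : Force R A) {L : PX → K6} (hL : ContDiff ℝ ∞ L) : ContDiff ℝ ∞ (fo A L) := by
  exact hA.sm.clm_apply (hL.comp px.contDiff)

theorem contDiff_vt (hA : Force R A) (hw : Ut R w) {L : PX → K6} (hL : ContDiff ℝ ∞ L) : ContDiff ℝ ∞ (vt w A L) := by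
  exact (hw.sm.comp (contDiff_snd.comp contDiff_snd)).prodMk (contDiff_fo hA hL)

/-- `fo A L` has compact support (inside that of `A`), `bd_of_cs`; `p ↦ w p.2.2` by `Bd.comp`; `fderiv` of a pair -/
theorem vt_lip (hA : Force R A) (hw : Ut R w) {L : PX → K6} (hL : ContDiff ℝ ∞ L) : ∃ c, ∀ p, ‖fderiv ℝ (vt w A L) p‖ ≤ c := by
  have hc : HasCompactSupport (fo A L) := hA.cs.mono fun p hp h0 => hp (by simp [fo, h0])
  obtain ⟨a, ha⟩ := bd_of_cs (contDiff_fo hA hL) hc 1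
  obtain ⟨b, hb⟩ := bd_of_cs hw.sm hw.cs 1
  let π : PZ →L[ℝ] R3 := (ContinuousLinearMap.snd ℝ R3 R3).comp (ContinuousLinearMap.snd ℝ ℝ Z6)
  have hπ : ‖π‖ ≤ 1 := ContinuousLinearMap.opNorm_le_bound _ zero_le_one fun p => by
    rw [one_mul]; exact (norm_snd_le p.2).trans (norm_snd_le p)
  have hb' := hb.comp hw.sm π hπ
  have hs : ContDiff ℝ ∞ fun p : PZ => w (π p) := hw.sm.comp π.contDiff
  refine ⟨max b a, fun p => ?_⟩
  have h1 := ((hs.differentiable (by simp) p).hasFDerivAt.prodMk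
    ((contDiff_fo hA hL).differentiable (by simp) p).hasFDerivAt).fderiv
  have h2 : fderiv ℝ (vt w A L) p = _ := h1
  rw [h2, ContinuousLinearMap.opNorm_prod]
  exact max_le_max ((bd_succ_iff.1 hb').2.norm_le p) ((bd_succ_iff.1 ha).2.norm_le p)

/-- for `‖v‖ ≤ R + 1` this is `Pic.vl`; otherwise `fderiv (f n) p = 0` (`Sv.fder`) -/
theorem Pic.vt (h : Pic R A f₀ K₀ f K) (hw : Ut R w) (n : ℕ) (p : PZ) : fderiv ℝ (f n) p (1, vt w A (K n) p) = 0 := by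
  by_cases hp : ‖p.2.2‖ ≤ R + 1
  · have := h.vl n p
    rw [HR.vt, hw.eq _ hp]
    exact this
  · have h0 : fderiv ℝ (f n) p = 0 := Sv.fder (h.sv n) (h.sf n) p (by linarith [not_le.1 hp])
    rw [h0]
    rfl

/-- `bd_of_cs`, `Bd.sl` for `A`; `Bd.comp` with `fst` for `z ↦ L (t, z.1)`; `Bd.bilin` with `B = ContinuousLinearMap.id ℝ (K6 →L[ℝ] R3)` -/
theorem bd_fo (hA : Force R A) (k : ℕ) : ∃ c : ℝ, 0 ≤ c ∧ ∀ (L : PX → K6) (t m : ℝ), ContDiff ℝ ∞ L → ∀ j ≤ k, Bd j (sl L t) m →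
    Bd j (sl (fo A L) t) (c * m) := by
  obtain ⟨a, ha⟩ := bd_of_cs hA.sm hA.cs k
  have ha0 := ha.nonneg
  refine ⟨2 ^ k * a, by positivity, fun L t m hL j hj hm => ?_⟩
  have hm0 := hm.nonneg
  have h1 : Bd j (sl A t) a := (ha.mono hj le_rfl).sl hA.sm t
  have h2 := hm.comp (contDiff_sl hL t) (ContinuousLinearMap.fst ℝ R3 R3) (ContinuousLinearMap.norm_fst_le ..)
  have h3 := Bd.bilin (ContinuousLinearMap.id ℝ (K6 →L[ℝ] R3)) (contDiff_sl hA.sm t)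
    ((contDiff_sl hL t).comp (ContinuousLinearMap.fst ℝ R3 R3).contDiff) h1 h2
  refine Bd.mono h3 le_rfl ?_
  have h4 : (2 : ℝ) ^ j ≤ 2 ^ k := pow_le_pow_right₀ one_le_two hj
  have h5 : ‖ContinuousLinearMap.id ℝ (K6 →L[ℝ] R3)‖ ≤ 1 := ContinuousLinearMap.norm_id_le
  calc ‖ContinuousLinearMap.id ℝ (K6 →L[ℝ] R3)‖ * 2 ^ j * a * m ≤ 1 * 2 ^ k * a * m := by gcongr
    _ = 2 ^ k * a * m := by ring

/-- `vt = inl (w v) + inr (fo)`: `Bd.add`, `Bd.clm`, `Bd.comp` with `snd`, `bd_fo` -/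
theorem bd_vt (hA : Force R A) (hw : Ut R w) (k : ℕ) : ∃ c : ℝ, 0 ≤ c ∧ ∀ (L : PX → K6) (t m : ℝ), ContDiff ℝ ∞ L → ∀ j ≤ k, Bd j (sl L t) m →
    Bd j (sl (vt w A L) t) (c * (1 + m)) := by
  obtain ⟨c, hc, h⟩ := bd_fo hA k
  obtain ⟨b, hb⟩ := bd_of_cs hw.sm hw.cs k
  have hb0 := hb.nonneg
  refine ⟨b + c, by positivity, fun L t m hL j hj hm => ?_⟩
  have hm0 := hm.nonneg
  have s1 : ContDiff ℝ ∞ fun z : Z6 => w (ContinuousLinearMap.snd ℝ R3 R3 z) :=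
    hw.sm.comp (ContinuousLinearMap.snd ℝ R3 R3).contDiff
  have s2 := contDiff_sl (contDiff_fo hA hL) t
  have h1 := ((hb.mono hj le_rfl).comp hw.sm (ContinuousLinearMap.snd ℝ R3 R3) (ContinuousLinearMap.norm_snd_le ..)).clm s1
    (ContinuousLinearMap.inl ℝ R3 R3)
  have h2 := (h L t m hL j hj hm).clm s2 (ContinuousLinearMap.inr ℝ R3 R3)
  have h3 := Bd.add ((ContinuousLinearMap.inl ℝ R3 R3).contDiff.comp s1) ((ContinuousLinearMap.inr ℝ R3 R3).contDiff.comp s2) h1 h2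
  have e : sl (vt w A L) t = fun z : Z6 => ContinuousLinearMap.inl ℝ R3 R3 (w (ContinuousLinearMap.snd ℝ R3 R3 z)) +
      ContinuousLinearMap.inr ℝ R3 R3 (sl (fo A L) t z) := by
    funext z
    simp [sl, vt]
  rw [e]
  refine Bd.mono h3 le_rfl ?_
  have n1 : ‖ContinuousLinearMap.inl ℝ R3 R3‖ ≤ 1 := ContinuousLinearMap.norm_inl_le_one ..
  have n2 : ‖ContinuousLinearMap.inr ℝ R3 R3‖ ≤ 1 := ContinuousLinearMap.norm_inr_le_one ..
  calc ‖ContinuousLinearMap.inl ℝ R3 R3‖ * b + ‖ContinuousLinearMap.inr ℝ R3 R3‖ * (c * m) ≤ 1 * b + 1 * (c * m) := by gcongr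
    _ ≤ (b + c) * (1 + m) := by nlinarith [mul_nonneg hb0 hm0]

/-- `f₀` has compact support (`HasCompactSupport.intro` with the closed ball of radius `R` in `Z6`), `bd_of_cs` -/
theorem Dat.bd (hD : Dat R f₀ K₀) (k : ℕ) : ∃ a : ℝ, 0 ≤ a ∧ Bd k f₀ a ∧ Bd k K₀ a := by
  have hc : HasCompactSupport f₀ := HasCompactSupport.intro (isCompact_closedBall (0 : Z6) R) fun z hz => by
    refine hD.supp z ?_
    rw [mem_closedBall_zero_iff, not_le, Prod.norm_def, lt_max_iff] at hz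
    exact hz.imp le_of_lt le_of_lt
  obtain ⟨a, ha⟩ := bd_of_cs hD.sf hc k
  obtain ⟨b, hb⟩ := hD.bK k
  exact ⟨max a b, ha.nonneg.trans (le_max_left _ _), ha.mono le_rfl (le_max_left _ _), hb.mono le_rfl (le_max_right _ _)⟩

theorem Pic.sl_f (h : Pic R A f₀ K₀ f K) (n : ℕ) : sl (f n) 0 = f₀ := funext (h.df n)
theorem Pic.sl_K (h : Pic R A f₀ K₀ f K) (n : ℕ) : sl (K (n + 1)) 0 = K₀ := funext (h.dK n)

/-- `trans_bd` with `k = 0`, `h = 0`, `α = ψ = 0` for the field `vt w A (K n)` (`exists_Ut`, `Pic.vt`, `vt_lip`) -/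
theorem Pic.f_bd0 (hA : Force R A) (hD : Dat R f₀ K₀) (h : Pic R A f₀ K₀ f K) : ∃ M, 0 ≤ M ∧ ∀ n t, 0 ≤ t → Bd 0 (sl (f n) t) M := by
  obtain ⟨w, hw⟩ := exists_Ut R
  obtain ⟨a, ha, hf, -⟩ := hD.bd 0
  refine ⟨a, ha, fun n t ht => bd_zero_iff.2 fun z => ?_⟩
  obtain ⟨c, hc⟩ := vt_lip hA hw (h.sK n)
  have := trans_bd (contDiff_vt hA hw (h.sK n)) hc 0 (u := f n) (h := fun _ => 0) (h.sf n) (h.vt hw n)
    (α := fun _ => 0) (ψ := fun _ => 0) (a := a) ht continuous_const continuous_const (fun _ _ => le_rfl)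
    (fun _ _ => le_rfl) (fun z => ?_) (fun s _ z => ?_) z
  · simpa [dX] using this
  · simpa [dX, h.sl_f] using hf.norm_le z
  · simp [dX, sl]

/-- `gsk` with `k = 0` for `Pic.lin`, `φ' s = M + M * c * φ s` (`Pic.f_bd0`, `bd_fo`, `flx_eq`) -/
theorem Pic.step0 (h0 : S_GS0) (hA : Force R A) (hD : Dat R f₀ K₀) (h : Pic R A f₀ K₀ f K) (T : ℝ) : ∃ c : ℝ, 0 ≤ c ∧
    ∀ n (φ : ℝ → ℝ), Continuous φ → (∀ s, 0 ≤ φ s) → (∀ s ∈ Icc 0 T, Bd 0 (sl (K n) s) (φ s)) →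
      ∀ t ∈ Icc 0 T, Bd 0 (sl (K (n + 1)) t) (c + c * ∫ s in (0 : ℝ)..t, φ s) := by
  obtain ⟨C, hC, H⟩ := gsk h0 R T
  obtain ⟨M, hM, hf⟩ := h.f_bd0 hA hD
  obtain ⟨c, hc, hfo⟩ := bd_fo hA 0
  obtain ⟨a, ha, hf0, hK0⟩ := hD.bd 1
  refine ⟨C * (a + |T| * M) + C * (M * c), by positivity, fun n φ hφ hφ0 hb t ht => ?_⟩
  have hI : 0 ≤ ∫ s in (0 : ℝ)..t, φ s := intervalIntegral.integral_nonneg ht.1 fun s _ => hφ0 s
  have key := H 0 _ _ _ (h.lin hA n) a (fun s => M + M * c * φ s) (by fun_prop) (by rw [h.sl_K]; exact hK0)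
    (by rw [h.sl_f]; exact hf0.mono zero_le_one le_rfl) t ht fun s hs => ?_
  · refine key.mono le_rfl ?_
    rw [intervalIntegral.integral_add intervalIntegrable_const ((hφ.intervalIntegrable 0 t).const_mul _),
      intervalIntegral.integral_const, intervalIntegral.integral_const_mul, sub_zero, smul_eq_mul]
    have h1 : t * M ≤ |T| * M := mul_le_mul_of_nonneg_right (ht.2.trans (le_abs_self T)) hM
    have h2 : C * (t * M) ≤ C * (|T| * M) := mul_le_mul_of_nonneg_left h1 hC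
    have h3 : 0 ≤ C * (M * c) := by positivity
    have h4 : 0 ≤ C * (a + |T| * M) * ∫ s in (0 : ℝ)..t, φ s := by positivity
    nlinarith
  · have hs' : s ∈ Icc 0 T := ⟨hs.1, hs.2.trans ht.2⟩
    have h1 := hf n s hs.1
    have h2 := hfo (K n) s (φ s) (h.sK n) 0 le_rfl (hb s hs')
    have h3 : 0 ≤ M * c * φ s := mul_nonneg (mul_nonneg hM hc) (hφ0 s)
    refine ⟨h1.mono le_rfl (by linarith), bd_zero_iff.2 fun z => ?_⟩
    have h4 := mul_le_mul (h1.norm_le z) (h2.norm_le z) (norm_nonneg _) hM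
    change ‖f n (s, z) • fo A (K n) (s, z)‖ ≤ _
    rw [norm_smul]
    change ‖f n (s, z)‖ * ‖fo A (K n) (s, z)‖ ≤ _ at h4
    nlinarith

theorem Pic.K_bd0 (h0 : S_GS0) (hA : Force R A) (hD : Dat R f₀ K₀) (h : Pic R A f₀ K₀ f K) (T : ℝ) :
    ∃ M, 0 ≤ M ∧ ∀ n, ∀ t ∈ Icc 0 T, Bd 0 (sl (K n) t) M := by
  obtain ⟨c, hc, hs⟩ := h.step0 h0 hA hD T
  refine rec_bd (P := fun n s a => Bd 0 (sl (K n) s) a) hc (fun n s a b h1 h2 => h1.mono le_rfl h2) (fun s _ => ?_) hs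
  rw [h.K0]; exact bd_zero_fun 0 le_rfl

/-- `trans_bd` with `k = 1`, `h = 0`, `ψ = 0`, `α s = 2 * c * (1 + (M + φ s))` (`bd_vt` with `j = 1`, `bd_succ_iff`, `fderiv_sl`, `‖inr‖ ≤ 1`);
`‖dX 1 u p‖ = ‖fderiv (sl u p.1) p.2‖` (`norm_iteratedFDeriv_one` or `norm_iteratedFDeriv_fderiv`); `a ≤ exp a` -/
theorem Pic.f_step1 (hA : Force R A) (hD : Dat R f₀ K₀) (h : Pic R A f₀ K₀ f K) {M : ℝ} (hM : ∀ n, ∀ t ∈ Icc 0 T, Bd 0 (sl (K n) t) M) :
    ∃ c : ℝ, 0 ≤ c ∧ ∀ n (φ : ℝ → ℝ), Continuous φ → (∀ s, 0 ≤ φ s) → (∀ s ∈ Icc 0 T, ∀ x, ‖fderiv ℝ (K n) (s, x)‖ ≤ φ s) →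
      ∀ t ∈ Icc 0 T, ∀ z, ‖fderiv ℝ (sl (f n) t) z‖ ≤ Real.exp (c + c * ∫ s in (0 : ℝ)..t, φ s) := by
  obtain ⟨w, hw⟩ := exists_Ut R
  obtain ⟨c0, hc0, hv⟩ := bd_vt hA hw 1
  obtain ⟨a, ha0, haf, -⟩ := hD.bd 1
  have hnd : ∀ {F : Type} [NormedAddCommGroup F] [NormedSpace ℝ F] (u : PZ → F) (s : ℝ) (y : Z6),
      ‖dX 1 u (s, y)‖ = ‖fderiv ℝ (sl u s) y‖ := by
    intro F _ _ u s y
    exact norm_iteratedFDeriv_one _
  refine ⟨a + 2 * c0 * (1 + |M|) * |T| + 2 * c0, by positivity, fun n φ hφ hφ0 hK t ht z => ?_⟩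
  obtain ⟨L, hL⟩ := vt_lip hA hw (h.sK n)
  have hI : 0 ≤ ∫ s in (0 : ℝ)..t, φ s := intervalIntegral.integral_nonneg ht.1 fun s _ => hφ0 s
  have key := trans_bd (contDiff_vt hA hw (h.sK n)) hL 1 (h := fun _ => (0 : ℝ)) (h.sf n) (h.vt hw n)
    (α := fun s => 2 * c0 * (1 + |M|) + 2 * c0 * φ s) (ψ := fun _ => 0) (a := a) ht.1 (by fun_prop) continuous_const
    (fun s _ => by have := hφ0 s; positivity) (fun _ _ => le_rfl)
    (fun y => by
      have := haf 1 le_rfl y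
      rw [← h.sl_f n] at this
      exact this)
    (fun s hs y => by
      have hsT : s ∈ Icc 0 T := ⟨hs.1, hs.2.trans ht.2⟩
      have hB : Bd 1 (sl (K n) s) (|M| + φ s) := by
        rw [bd_succ_iff]
        refine ⟨fun x => ((hM n s hsT).norm_le x).trans ((le_abs_self M).trans (le_add_of_nonneg_right (hφ0 s))), ?_⟩
        rw [bd_zero_iff]
        intro x
        rw [fderiv_sl (h.sK n)]
        refine (ContinuousLinearMap.opNorm_comp_le _ _).trans ?_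
        refine (mul_le_of_le_one_right (norm_nonneg _) (ContinuousLinearMap.norm_inr_le_one ℝ ℝ R3)).trans ?_
        exact (hK s hsT x).trans (le_add_of_nonneg_left (abs_nonneg M))
      have h1 : ‖dX 1 (HR.vt w A (K n)) (s, y)‖ ≤ c0 * (1 + (|M| + φ s)) := hv (K n) s _ (h.sK n) 1 le_rfl hB 1 le_rfl y
      have h0 : ‖dX 1 (fun _ : PZ => (0 : ℝ)) (s, y)‖ = 0 := by
        rw [hnd]
        have : sl (fun _ : PZ => (0 : ℝ)) s = fun _ => 0 := rfl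
        rw [this]; simp
      rw [h0]
      simp only [Finset.range_one, Finset.sum_singleton, zero_add, Nat.sub_zero, pow_one, add_zero]
      have := mul_le_mul_of_nonneg_right h1 (norm_nonneg (dX 1 (f n) (s, y)))
      linarith) z
  rw [hnd] at key
  refine key.trans ?_
  rw [intervalIntegral.integral_add (by simp) ((hφ.const_mul _).intervalIntegrable _ _), intervalIntegral.integral_const,
    intervalIntegral.integral_const, intervalIntegral.integral_const_mul]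
  simp only [sub_zero, smul_eq_mul, mul_zero, add_zero]
  have hexp : a ≤ Real.exp a := by linarith [Real.add_one_le_exp a]
  refine (mul_le_mul_of_nonneg_left hexp (Real.exp_pos _).le).trans ?_
  rw [← Real.exp_add]
  refine Real.exp_le_exp.2 ?_
  have h2 : t * (2 * c0 * (1 + |M|)) ≤ 2 * c0 * (1 + |M|) * |T| := by
    rw [mul_comm]
    exact mul_le_mul_of_nonneg_left (ht.2.trans (le_abs_self T)) (by positivity)
  have h3 : 0 ≤ (a + 2 * c0 * (1 + |M|) * |T|) * ∫ s in (0 : ℝ)..t, φ s := by positivity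
  nlinarith

/-- `S_LOG` for `Pic.lin` with `N = exp (c + c * ∫ 0..t φ)` (`Pic.f_step1`; `∫ 0..s φ ≤ ∫ 0..t φ` for `s ≤ t`), `Real.log_exp`; then `exists_mx_norm`, `fderiv_sl`,
`‖cur (f n) q‖ ≤ vB R * M` (`cur_eq`, `Sv.norm_Iv`, `norm_relVel_le`, `Pic.f_bd0`) -/
theorem Pic.step1 (h1 : S_LOG) (hA : Force R A) (hD : Dat R f₀ K₀) (h : Pic R A f₀ K₀ f K) {M : ℝ}
    (hM : ∀ n, ∀ t ∈ Icc 0 T, Bd 0 (sl (K n) t) M) : ∃ c : ℝ, 0 ≤ c ∧
    ∀ n (φ : ℝ → ℝ), Continuous φ → (∀ s, 0 ≤ φ s) → (∀ s ∈ Icc 0 T, ∀ x, ‖fderiv ℝ (K n) (s, x)‖ ≤ φ s) →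
      ∀ t ∈ Icc 0 T, ∀ x, ‖fderiv ℝ (K (n + 1)) (t, x)‖ ≤ c + c * ∫ s in (0 : ℝ)..t, φ s := by
  obtain ⟨a, ha, hf₀, hK₀⟩ := hD.bd 2
  obtain ⟨M₀, hM₀, hf0⟩ := h.f_bd0 hA hD
  obtain ⟨c₁, hc₁, hs⟩ := h.f_step1 hA hD hM
  obtain ⟨c₂, hc₂, hx⟩ := exists_mx_norm
  obtain ⟨C, hC, H⟩ := h1 R T (max a (max M₀ M)) A hA
  have hv := mul_nonneg (vB_nonneg R) hM₀
  have hcc : 0 ≤ c₂ * C * (1 + c₁) := by positivity
  refine ⟨c₂ * C * (1 + c₁) + vB R * M₀, by positivity, fun n φ hφ hφ0 hb t ht x => ?_⟩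
  have hI : ∀ s, 0 ≤ s → 0 ≤ ∫ r in (0 : ℝ)..s, φ r := fun s hs => intervalIntegral.integral_nonneg hs fun r _ => hφ0 r
  have hI' : ∀ s ∈ Icc 0 t, ∫ r in (0 : ℝ)..s, φ r ≤ ∫ r in (0 : ℝ)..t, φ r := fun s hs =>
    intervalIntegral.integral_mono_interval le_rfl hs.1 hs.2 (Eventually.of_forall hφ0) (hφ.intervalIntegrable _ _)
  have h2 := H (f n) (K n) (K (n + 1)) (h.sK n) (h.lin hA n) (by rw [h.sl_K]; exact hK₀.mono le_rfl (le_max_left _ _))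
    (by rw [h.sl_f]; exact hf₀.mono one_le_two (le_max_left _ _))
    (fun s hs => ⟨fun z => ((hf0 n s hs.1).norm_le z).trans ((le_max_left _ _).trans (le_max_right _ _)),
      fun y => ((hM n s hs).norm_le y).trans ((le_max_right _ _).trans (le_max_right _ _))⟩)
    (Real.exp (c₁ + c₁ * ∫ r in (0 : ℝ)..t, φ r)) φ (Real.one_le_exp (add_nonneg hc₁ (mul_nonneg hc₁ (hI t ht.1)))) hφ t ht
    (fun s hs' => ⟨fun z => (hs n φ hφ hφ0 hb s ⟨hs'.1, hs'.2.trans ht.2⟩ z).trans (Real.exp_le_exp.2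
      (add_le_add_right (mul_le_mul_of_nonneg_left (hI' s hs') hc₁) _)), hb s ⟨hs'.1, hs'.2.trans ht.2⟩⟩) x
  rw [Real.log_exp, fderiv_sl (h.sK _)] at h2
  have h3 : ‖cur (f n) (t, x)‖ ≤ vB R * M₀ := by
    rw [cur_eq]
    refine Sv.norm_Iv (fun p hp => by rw [h.sv n p hp, zero_smul]) _ fun v => ?_
    rw [norm_smul]
    exact (mul_le_of_le_one_right (norm_nonneg _) (norm_relVel_le v)).trans ((hf0 n t ht.1).norm_le (x, v))
  have h4 := hx _ _ _ (h.mx n (t, x))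
  have h5 := mul_le_mul_of_nonneg_left h2 hc₂
  have h6 := mul_nonneg hv (hI t ht.1)
  nlinarith

/-- `Pic.K_bd0`, `rec_bd` with `Pic.step1` (`K 0 = 0`), `Pic.f_step1` with a constant `φ`, `Pic.f_bd0`, `bd_succ_iff`, `bd_zero_iff`, `fderiv_sl` -/
theorem Pic.unif1 (h0 : S_GS0) (h1 : S_LOG) (hA : Force R A) (hD : Dat R f₀ K₀) (h : Pic R A f₀ K₀ f K) (T : ℝ) :
    ∃ M, ∀ n, ∀ t ∈ Icc 0 T, Bd 1 (sl (f n) t) M ∧ Bd 1 (sl (K n) t) M := by
  obtain ⟨M, hM0, hM⟩ := h.K_bd0 h0 hA hD T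
  obtain ⟨c, hc, hs⟩ := h.step1 h1 hA hD hM
  obtain ⟨N, hN, hK⟩ := rec_bd (P := fun n s a => ∀ x, ‖fderiv ℝ (K n) (s, x)‖ ≤ a) hc
    (fun n s a b h1 h2 x => (h1 x).trans h2) (fun s _ x => by
      rw [h.K0]
      have : (0 : PX → K6) = fun _ => 0 := rfl
      rw [this]; simp) hs
  obtain ⟨c', hc', hf⟩ := h.f_step1 hA hD hM
  obtain ⟨M', hM'0, hM'⟩ := h.f_bd0 hA hD
  refine ⟨M + N + M' + Real.exp (c' + c' * (T * N)), fun n t ht => ⟨?_, ?_⟩⟩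
  · have hE := (Real.exp_pos (c' + c' * (T * N))).le
    rw [bd_succ_iff]
    refine ⟨fun z => ((hM' n t ht.1).norm_le z).trans (by linarith), ?_⟩
    rw [bd_zero_iff]
    intro z
    refine (hf n (fun _ => N) continuous_const (fun _ => hN) (hK n) t ht z).trans ?_
    rw [intervalIntegral.integral_const, sub_zero, smul_eq_mul]
    have : Real.exp (c' + c' * (t * N)) ≤ Real.exp (c' + c' * (T * N)) := by
      gcongr
      exact ht.2
    linarith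
  · have hE := (Real.exp_pos (c' + c' * (T * N))).le
    rw [bd_succ_iff]
    refine ⟨fun x => ((hM n t ht).norm_le x).trans (by linarith), ?_⟩
    rw [bd_zero_iff]
    intro x
    rw [fderiv_sl (h.sK n)]
    refine (ContinuousLinearMap.opNorm_comp_le _ _).trans ?_
    refine (mul_le_of_le_one_right (norm_nonneg _) (ContinuousLinearMap.norm_inr_le_one ℝ ℝ R3)).trans ?_
    exact (hK n t ht x).trans (by linarith)

/-- `trans_bd` of order `k + 2` with `h = 0`: `Finset.sum_range_succ'` splits off `j = 0` (gives the constant `α = 2 ^ (k + 2) * c * (1 + M)`); for `j ≥ 1`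
`‖dX (j + 1) b‖ ≤ c * (1 + φ s)` and `‖dX (k + 2 - j) u‖ ≤ M`, so `ψ s = 2 ^ (k + 2) * (k + 1) * c * (1 + φ s) * M`; lower orders from `hM` -/
theorem Pic.f_stepk (hA : Force R A) (hD : Dat R f₀ K₀) (h : Pic R A f₀ K₀ f K) {k : ℕ} {M : ℝ}
    (hM : ∀ n, ∀ t ∈ Icc 0 T, Bd (k + 1) (sl (f n) t) M ∧ Bd (k + 1) (sl (K n) t) M) : ∃ c : ℝ, 0 ≤ c ∧
    ∀ n (φ : ℝ → ℝ), Continuous φ → (∀ s, 0 ≤ φ s) → (∀ s ∈ Icc 0 T, Bd (k + 2) (sl (K n) s) (φ s)) →
      ∀ t ∈ Icc 0 T, Bd (k + 2) (sl (f n) t) (c + c * ∫ s in (0 : ℝ)..t, φ s) := by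
  by_cases hT : 0 ≤ T
  swap
  · exact ⟨0, le_rfl, fun n φ _ _ _ t ht => absurd (ht.1.trans ht.2) hT⟩
  have hM0 : 0 ≤ M := (hM 0 0 ⟨le_rfl, hT⟩).1.nonneg
  obtain ⟨w, hw⟩ := exists_Ut R
  obtain ⟨c, hc, hb⟩ := bd_vt hA hw (k + 2)
  obtain ⟨a, ha, haf, -⟩ := hD.bd (k + 2)
  set α : ℝ := 2 ^ (k + 2) * (c * (1 + M)) with hα
  set β : ℝ := 2 ^ (k + 2) * ((k + 1) * (c * M)) with hβ
  have hα0 : 0 ≤ α := by positivity
  have hβ0 : 0 ≤ β := by positivity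
  set e : ℝ := Real.exp (T * α) with he
  have he0 : 0 < e := Real.exp_pos _
  refine ⟨M + e * (a + T * β) + e * β, by positivity, fun n φ hφ hφ0 hK t ht => ?_⟩
  have hI : 0 ≤ ∫ s in (0 : ℝ)..t, φ s := intervalIntegral.integral_nonneg ht.1 fun s _ => hφ0 s
  have hp1 : 0 ≤ e * (a + T * β) := by positivity
  have hp2 : 0 ≤ e * β := by positivity
  intro j hj z
  by_cases hjk : j ≤ k + 1
  · refine ((hM n t ht).1 j hjk z).trans ?_
    have : 0 ≤ (M + e * (a + T * β) + e * β) * ∫ s in (0 : ℝ)..t, φ s := by positivity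
    linarith
  obtain rfl : j = k + 2 := by omega
  obtain ⟨L, hL⟩ := vt_lip hA hw (h.sK n)
  have key := trans_bd (contDiff_vt hA hw (h.sK n)) hL (k + 2) (h.sf n) (h := fun _ => (0 : ℝ)) (h.vt hw n)
    (α := fun _ => α) (ψ := fun s => β + β * φ s) (a := a) ht.1 continuous_const
    (continuous_const.add (continuous_const.mul hφ)) (fun _ _ => hα0) (fun s _ => by have := hφ0 s; positivity)
    (fun z => by
      have := haf (k + 2) le_rfl z
      rw [← h.sl_f n] at this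
      exact this)
    (fun s hs z => by
      have hs' : s ∈ Icc 0 T := ⟨hs.1, hs.2.trans ht.2⟩
      have h0 : ‖dX (k + 2) (fun _ : PZ => (0 : ℝ)) (s, z)‖ ≤ 0 := bd_zero_fun (X := Z6) (F := ℝ) (k + 2) le_rfl (k + 2) le_rfl z
      have h1 : ‖dX (0 + 1) (HR.vt w A (K n)) (s, z)‖ ≤ c * (1 + M) :=
        hb (K n) s M (h.sK n) (k + 1) (by omega) (hM n s hs').2 (0 + 1) (by omega) z
      have h2 : ∑ j ∈ Finset.range (k + 1), ‖dX (j + 1 + 1) (HR.vt w A (K n)) (s, z)‖ * ‖dX (k + 2 - (j + 1)) (f n) (s, z)‖ ≤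
          ∑ _j ∈ Finset.range (k + 1), c * (1 + φ s) * M := by
        refine Finset.sum_le_sum fun j hj => ?_
        have hj' := Finset.mem_range.1 hj
        have hφs := hφ0 s
        exact mul_le_mul (hb (K n) s (φ s) (h.sK n) (k + 2) le_rfl (hK s hs') (j + 1 + 1) (by omega) z)
          ((hM n s hs').1 (k + 2 - (j + 1)) (by omega) z) (norm_nonneg _) (by positivity)
      rw [Finset.sum_const, Finset.card_range, nsmul_eq_mul] at h2
      rw [Finset.sum_range_succ', Nat.sub_zero]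
      have h3 := mul_le_mul_of_nonneg_right h1 (norm_nonneg (dX (k + 2) (f n) (s, z)))
      have h4 := mul_le_mul_of_nonneg_left (add_le_add h2 h3) (show (0 : ℝ) ≤ 2 ^ (k + 2) by positivity)
      refine (add_le_add h0 h4).trans (le_of_eq ?_)
      simp only [hα, hβ]
      push_cast
      ring) z
  have i1 : ∫ s in (0 : ℝ)..t, (β + β * φ s) = t * β + β * ∫ s in (0 : ℝ)..t, φ s := by
    have hc2 : Continuous fun s => β * φ s := continuous_const.mul hφ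
    rw [intervalIntegral.integral_add (continuous_const.intervalIntegrable _ _)
      (hc2.intervalIntegrable _ _), intervalIntegral.integral_const, sub_zero, smul_eq_mul,
      intervalIntegral.integral_const_mul]
  rw [i1, intervalIntegral.integral_const, sub_zero, smul_eq_mul] at key
  have e1 : Real.exp (t * α) ≤ e := Real.exp_le_exp.2 (mul_le_mul_of_nonneg_right ht.2 hα0)
  have e2 : t * β ≤ T * β := mul_le_mul_of_nonneg_right ht.2 hβ0
  have ht0 := ht.1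
  have e3 : Real.exp (t * α) * (a + (t * β + β * ∫ s in (0 : ℝ)..t, φ s)) ≤
      e * (a + (T * β + β * ∫ s in (0 : ℝ)..t, φ s)) :=
    mul_le_mul e1 (by linarith) (by positivity) he0.le
  refine (key.trans e3).trans ?_
  have := mul_nonneg hM0 hI
  have := mul_nonneg hp1 hI
  nlinarith

/-- `gsk` of order `k + 2` for `Pic.lin`: with `m = c + c * ∫ 0..t φ` (`Pic.f_stepk`, monotone in `t`) take `φ' s = m + c' * (M * (c₁ * φ s) + m * (c₁ * M))`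
(`Bd.tame` with `B = ContinuousLinearMap.lsmul ℝ ℝ`, `bd_fo`, `flx_eq`); `∫ 0..t m ≤ T * m` -/
theorem Pic.stepk (h0 : S_GS0) (hA : Force R A) (hD : Dat R f₀ K₀) (h : Pic R A f₀ K₀ f K) {k : ℕ} {M : ℝ}
    (hM : ∀ n, ∀ t ∈ Icc 0 T, Bd (k + 1) (sl (f n) t) M ∧ Bd (k + 1) (sl (K n) t) M) : ∃ c : ℝ, 0 ≤ c ∧
    ∀ n (φ : ℝ → ℝ), Continuous φ → (∀ s, 0 ≤ φ s) → (∀ s ∈ Icc 0 T, Bd (k + 2) (sl (K n) s) (φ s)) →
      ∀ t ∈ Icc 0 T, Bd (k + 2) (sl (K (n + 1)) t) (c + c * ∫ s in (0 : ℝ)..t, φ s) := by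
  obtain ⟨C, hC, hg⟩ := gsk h0 R T
  obtain ⟨c, hc, hf⟩ := h.f_stepk hA hD hM
  obtain ⟨c₁, hc₁, hfo⟩ := bd_fo hA (k + 2)
  obtain ⟨a, ha, ha1, ha2⟩ := hD.bd (k + 3)
  obtain ⟨c', hc'⟩ : ∃ c' : ℝ, c' = ‖(ContinuousLinearMap.lsmul ℝ ℝ : ℝ →L[ℝ] R3 →L[ℝ] R3)‖ * 2 ^ (k + 1 + 1) := ⟨_, rfl⟩
  have hc'0 : 0 ≤ c' := by rw [hc']; positivity
  obtain ⟨β, hβ⟩ : ∃ β : ℝ, β = c' * (|M| * c₁) := ⟨_, rfl⟩
  have hβ0 : 0 ≤ β := by rw [hβ]; positivity
  refine ⟨C * (a + |T| * (1 + β) * c + β), by positivity, fun n φ hφ hφ0 hK t ht => ?_⟩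
  have hI : ∀ s ∈ Icc 0 t, ∫ r in (0 : ℝ)..s, φ r ≤ ∫ r in (0 : ℝ)..t, φ r := fun s hs =>
    intervalIntegral.integral_mono_interval le_rfl hs.1 hs.2 (Eventually.of_forall fun r => hφ0 r) (hφ.intervalIntegrable _ _)
  have hI0 : 0 ≤ ∫ r in (0 : ℝ)..t, φ r := intervalIntegral.integral_nonneg ht.1 fun r _ => hφ0 r
  obtain ⟨I, hIe⟩ : ∃ I, I = ∫ r in (0 : ℝ)..t, φ r := ⟨_, rfl⟩
  rw [← hIe] at hI hI0 ⊢
  have hm : 0 ≤ c + c * I := by positivity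
  have h1 := hg (k + 2) _ _ _ (h.lin hA n) a (fun s => (c + c * I) * (1 + β) + β * φ s) (by fun_prop) (h.sl_K n ▸ ha2)
    (h.sl_f n ▸ ha1.mono (Nat.le_succ _) le_rfl) t ht fun s hs => by
      have hs' : s ∈ Icc 0 T := ⟨hs.1, hs.2.trans ht.2⟩
      have h2 : Bd (k + 2) (sl (f n) s) (c + c * I) := (hf n φ hφ hφ0 hK s hs').mono le_rfl (by have := hI s hs; gcongr)
      have h3 := mul_nonneg hβ0 (hφ0 s)
      have h4 := mul_nonneg hm hβ0
      refine ⟨h2.mono le_rfl (by linarith), ?_⟩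
      have h5 := Bd.tame (ContinuousLinearMap.lsmul ℝ ℝ : ℝ →L[ℝ] R3 →L[ℝ] R3) (contDiff_sl (h.sf n) s)
        (contDiff_sl (contDiff_fo hA (h.sK n)) s) ((hM n s hs').1.mono le_rfl (le_abs_self M)) h2
        (hfo (K n) s _ (h.sK n) _ (Nat.le_succ _) ((hM n s hs').2.mono le_rfl (le_abs_self M))) (hfo (K n) s _ (h.sK n) _ le_rfl (hK s hs'))
      rw [← hc'] at h5
      refine Bd.mono h5 le_rfl ?_
      have e : c' * (|M| * (c₁ * φ s) + (c + c * I) * (c₁ * |M|)) = β * φ s + (c + c * I) * β := by rw [hβ]; ring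
      rw [e]
      linarith
  refine h1.mono le_rfl ?_
  rw [intervalIntegral.integral_add (continuous_const.intervalIntegrable _ _) ((hφ.intervalIntegrable _ _).const_mul β),
    intervalIntegral.integral_const, intervalIntegral.integral_const_mul, ← hIe, sub_zero, smul_eq_mul, mul_assoc C, ← mul_add C]
  refine mul_le_mul_of_nonneg_left ?_ hC
  have h2 : t * ((c + c * I) * (1 + β)) ≤ |T| * ((c + c * I) * (1 + β)) :=
    mul_le_mul_of_nonneg_right (ht.2.trans (le_abs_self T)) (by positivity)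
  have h3 := mul_nonneg ha hI0
  nlinarith

theorem Pic.unif_x (h0 : S_GS0) (h1 : S_LOG) (hA : Force R A) (hD : Dat R f₀ K₀) (h : Pic R A f₀ K₀ f K) (T : ℝ) (k : ℕ) :
    ∃ M, ∀ n, ∀ t ∈ Icc 0 T, Bd k (sl (f n) t) M ∧ Bd k (sl (K n) t) M := by
  suffices H : ∃ M, ∀ n, ∀ t ∈ Icc 0 T, Bd (k + 1) (sl (f n) t) M ∧ Bd (k + 1) (sl (K n) t) M by
    obtain ⟨M, hM⟩ := H
    exact ⟨M, fun n t ht => ⟨(hM n t ht).1.mono k.le_succ le_rfl, (hM n t ht).2.mono k.le_succ le_rfl⟩⟩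
  induction k with
  | zero => exact h.unif1 h0 h1 hA hD T
  | succ k ih =>
    obtain ⟨M, hM⟩ := ih
    obtain ⟨c, hc, hs⟩ := h.stepk h0 hA hD hM
    obtain ⟨c', hc', hs'⟩ := h.f_stepk hA hD hM
    obtain ⟨N, hN, hK⟩ := rec_bd (P := fun n s a => Bd (k + 2) (sl (K n) s) a) hc (fun n s a b h1 h2 => h1.mono le_rfl h2)
      (fun s _ => by rw [h.K0]; exact bd_zero_fun _ le_rfl) hs
    refine ⟨max N (c' + c' * (T * N)), fun n t ht => ⟨(hs' n (fun _ => N) continuous_const (fun _ => hN) (hK n) t ht).mono le_rfl ?_,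
      (hK n t ht).mono le_rfl (le_max_left _ _)⟩⟩
    refine le_trans ?_ (le_max_right _ _)
    rw [intervalIntegral.integral_const, sub_zero, smul_eq_mul]
    gcongr
    exact ht.2

theorem unifg_norm_dX0 {X F : Type} [NormedAddCommGroup X] [NormedSpace ℝ X] [NormedAddCommGroup F] [NormedSpace ℝ F]
    (u : ℝ × X → F) (p : ℝ × X) : ‖dX 0 u p‖ = ‖u p‖ := by
  rw [genf_dX_zero]
  exact LinearIsometryEquiv.norm_map _ _

/-- `u = f (n + 1) - f n` satisfies `fderiv u p (1, vt w A (K (n + 1)) p) = -fderiv (f n) p (0, 0, fo A (K (n + 1) - K n) p)` (subtract the two `Pic.vt`, linearity);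
`trans_bd` with `k = 0`, `a = 0`, `α = 0`, `ψ s = M * (c * φ s)` (`bd_fo`, `fderiv_sl`) -/
theorem Pic.f_diff (hA : Force R A) (hD : Dat R f₀ K₀) (h : Pic R A f₀ K₀ f K) {M : ℝ} (hM : ∀ n, ∀ t ∈ Icc 0 T, Bd 1 (sl (f n) t) M) :
    ∃ c : ℝ, 0 ≤ c ∧ ∀ n (φ : ℝ → ℝ), Continuous φ → (∀ s, 0 ≤ φ s) → (∀ s ∈ Icc 0 T, ∀ x, ‖K (n + 1) (s, x) - K n (s, x)‖ ≤ φ s) →
      ∀ t ∈ Icc 0 T, ∀ z, |f (n + 1) (t, z) - f n (t, z)| ≤ c * ∫ s in (0 : ℝ)..t, φ s := by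
  obtain ⟨w, hw⟩ := exists_Ut R
  obtain ⟨c, hc, hb⟩ := bd_fo hA 0
  refine ⟨max M 0 * c, by positivity, fun n φ hφ hφ0 hK t ht z => ?_⟩
  have hM0 : 0 ≤ M := (hM 0 t ht).nonneg
  rw [max_eq_left hM0]
  obtain ⟨L, hL⟩ := vt_lip hA hw (h.sK (n + 1))
  have hu : ContDiff ℝ ∞ (fun p => f (n + 1) p - f n p) := (h.sf (n + 1)).sub (h.sf n)
  have hKd : ContDiff ℝ ∞ (fun q => K (n + 1) q - K n q) := (h.sK (n + 1)).sub (h.sK n)
  have he : ∀ p, fderiv ℝ (fun p => f (n + 1) p - f n p) p (1, HR.vt w A (K (n + 1)) p) =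
      -fderiv ℝ (f n) p (0, 0, fo A (fun q => K (n + 1) q - K n q) p) := by
    intro p
    rw [fderiv_fun_sub ((h.sf (n + 1)).differentiable (by simp) p) ((h.sf n).differentiable (by simp) p),
      sub_apply, h.vt hw (n + 1) p]
    have e : (((1 : ℝ), HR.vt w A (K (n + 1)) p) : PZ) =
        ((1 : ℝ), HR.vt w A (K n) p) + (0, 0, fo A (fun q => K (n + 1) q - K n q) p) := by
      simp [HR.vt, fo]
    rw [e, map_add, h.vt hw n p]
    simp
  have hs : ∀ s ∈ Icc 0 t, ∀ z, ‖-fderiv ℝ (f n) (s, z) (0, 0, fo A (fun q => K (n + 1) q - K n q) (s, z))‖ ≤ M * c * φ s := by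
    intro s hs z
    have hs' : s ∈ Icc 0 T := ⟨hs.1, hs.2.trans ht.2⟩
    have h1 := (bd_succ_iff.1 (hM n s hs')).2.norm_le z
    have h2 := (hb (fun q => K (n + 1) q - K n q) s (φ s) hKd 0 le_rfl (bd_zero_iff.2 fun x => hK s hs' x)).norm_le z
    have h3 : fderiv ℝ (f n) (s, z) (0, 0, fo A (fun q => K (n + 1) q - K n q) (s, z)) =
        fderiv ℝ (sl (f n) s) z (0, fo A (fun q => K (n + 1) q - K n q) (s, z)) := by
      rw [fderiv_sl (h.sf n)]; rfl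
    rw [norm_neg, h3]
    refine (ContinuousLinearMap.le_opNorm _ _).trans ?_
    rw [mul_assoc]
    refine mul_le_mul h1 ?_ (norm_nonneg _) hM0
    rw [Prod.norm_def, norm_zero, max_eq_right (norm_nonneg _)]
    exact h2
  have key := trans_bd (contDiff_vt hA hw (h.sK (n + 1))) hL 0 hu he (α := fun _ => 0) (ψ := fun s => M * c * φ s) (a := 0) ht.1
    continuous_const (continuous_const.mul hφ) (fun _ _ => le_rfl) (fun s _ => mul_nonneg (mul_nonneg hM0 hc) (hφ0 s))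
    (fun z => by rw [unifg_norm_dX0, h.df, h.df, sub_self, norm_zero]) (fun s hs' z => by
      rw [unifg_norm_dX0, Finset.range_zero, Finset.sum_empty, mul_zero, add_zero, zero_mul, zero_add]
      exact hs s hs' z) z
  rw [unifg_norm_dX0, intervalIntegral.integral_zero, Real.exp_zero, one_mul, zero_add, intervalIntegral.integral_const_mul] at key
  exact key

/-- `S_GS0` with `a = 0` for `(h.lin hA (n + 1)).sub (h.lin hA n)`: with `m = c * ∫ 0..t φ` (`Pic.f_diff`, monotone in `t`),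
`flx (n+1) - flx n = (f (n+1) - f n) • fo (K (n+1)) + f n • A p (K (n+1) - K n)`, `φ' s = m + m * (c₁ * M) + M * (c₁ * φ s)` -/
theorem Pic.K_diff (h0 : S_GS0) (hA : Force R A) (hD : Dat R f₀ K₀) (h : Pic R A f₀ K₀ f K) {M : ℝ}
    (hM : ∀ n, ∀ t ∈ Icc 0 T, Bd 1 (sl (f n) t) M ∧ Bd 1 (sl (K n) t) M) :
    ∃ c : ℝ, 0 ≤ c ∧ ∀ n (φ : ℝ → ℝ), Continuous φ → (∀ s, 0 ≤ φ s) → (∀ s ∈ Icc 0 T, ∀ x, ‖K (n + 1) (s, x) - K n (s, x)‖ ≤ φ s) →
      ∀ t ∈ Icc 0 T, ∀ x, ‖K (n + 2) (t, x) - K (n + 1) (t, x)‖ ≤ c * ∫ s in (0 : ℝ)..t, φ s := by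
  rcases lt_or_ge T 0 with hT | hT
  · exact ⟨0, le_rfl, fun n φ _ _ _ t ht => absurd (ht.1.trans ht.2) (not_le.2 hT)⟩
  have hM0 : 0 ≤ M := (hM 0 0 ⟨le_rfl, hT⟩).1.nonneg
  obtain ⟨C, hC, hG⟩ := h0 R T
  obtain ⟨c, hc, hf⟩ := h.f_diff hA hD (fun n t ht => (hM n t ht).1)
  obtain ⟨c₁, hc₁, hb⟩ := bd_fo hA 0
  refine ⟨C * (T * (c * (1 + c₁ * M)) + M * c₁), by positivity, fun n φ hφ hφ0 hK t ht x => ?_⟩
  obtain ⟨I, hI⟩ : ∃ I, I = ∫ s in (0 : ℝ)..t, φ s := ⟨_, rfl⟩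
  have hI0 : 0 ≤ I := hI ▸ intervalIntegral.integral_nonneg ht.1 fun s _ => hφ0 s
  have key := hG _ _ _ ((h.lin hA (n + 1)).sub (h.lin hA n)) 0 (fun s => c * I * (1 + c₁ * M) + M * (c₁ * φ s))
    (by fun_prop) ?_ ?_ t ht ?_ x
  · rw [intervalIntegral.integral_add (by simp) (by apply Continuous.intervalIntegrable; fun_prop),
      intervalIntegral.integral_const, intervalIntegral.integral_const_mul, intervalIntegral.integral_const_mul, ← hI,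
      sub_zero, smul_eq_mul, zero_add] at key
    rw [← hI]
    refine key.trans ?_
    rw [mul_assoc C]
    refine mul_le_mul_of_nonneg_left ?_ hC
    have := mul_le_mul_of_nonneg_right ht.2 (show 0 ≤ c * I * (1 + c₁ * M) by positivity)
    linarith
  · have e : (sl (fun q => K (n + 1 + 1) q - K (n + 1) q) 0 : R3 → K6) = fun _ => 0 := by
      funext y
      simp only [sl, h.dK, sub_self]
    exact e ▸ bd_zero_fun 1 le_rfl
  · intro z
    simp only [h.df, sub_self, abs_zero, le_refl]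
  · intro s hs z
    have hs' : s ∈ Icc 0 T := ⟨hs.1, hs.2.trans ht.2⟩
    have h1 : |f (n + 1) (s, z) - f n (s, z)| ≤ c * I := by
      refine (hf n φ hφ hφ0 hK s hs' z).trans (mul_le_mul_of_nonneg_left ?_ hc)
      rw [hI]
      exact intervalIntegral.integral_mono_interval le_rfl hs.1 hs.2 (Eventually.of_forall fun r => hφ0 r)
        (hφ.intervalIntegrable _ _)
    have h2 : ‖fo A (K (n + 1)) (s, z)‖ ≤ c₁ * M :=
      (hb _ s M (h.sK (n + 1)) 0 le_rfl ((hM (n + 1) s hs').2.mono zero_le_one le_rfl)).norm_le z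
    have h3 : ‖fo A (fun q => K (n + 1) q - K n q) (s, z)‖ ≤ c₁ * φ s :=
      (hb _ s (φ s) ((h.sK (n + 1)).sub (h.sK n)) 0 le_rfl (bd_zero_iff.2 (hK s hs'))).norm_le z
    have h4 : ‖f n (s, z)‖ ≤ M := (hM n s hs').1.norm_le z
    have p1 : 0 ≤ M * (c₁ * φ s) := mul_nonneg hM0 (mul_nonneg hc₁ (hφ0 s))
    have p2 : 0 ≤ c * I * (c₁ * M) := by positivity
    have p3 : 0 ≤ c * I := by positivity
    refine ⟨by linarith, ?_⟩
    have e : flx A (K (n + 1)) (f (n + 1)) (s, z) - flx A (K n) (f n) (s, z) =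
        (f (n + 1) (s, z) - f n (s, z)) • fo A (K (n + 1)) (s, z) +
          f n (s, z) • fo A (fun q => K (n + 1) q - K n q) (s, z) := by
      simp only [flx, fo, map_sub, smul_sub, sub_smul]
      abel
    refine (congrArg norm e).le.trans ((norm_add_le _ _).trans ?_)
    rw [norm_smul, norm_smul]
    have q1 := mul_le_mul h1 h2 (norm_nonneg _) p3
    have q2 := mul_le_mul h4 h3 (norm_nonneg _) hM0
    rw [← Real.norm_eq_abs] at q1
    linarith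

/-- `Pic.unif1`, `rec_geo` with `Pic.K_diff` (start: `‖K 1 - K 0‖ ≤ 2 M`), then `Pic.f_diff` with the constant `φ = M' * (1 / 2) ^ n` -/
theorem Pic.geo (h0 : S_GS0) (h1 : S_LOG) (hA : Force R A) (hD : Dat R f₀ K₀) (h : Pic R A f₀ K₀ f K) (T : ℝ) :
    ∃ M, ∀ n, ∀ t ∈ Icc 0 T, (∀ z, |f (n + 1) (t, z) - f n (t, z)| ≤ M * (1 / 2) ^ n) ∧
      ∀ x, ‖K (n + 1) (t, x) - K n (t, x)‖ ≤ M * (1 / 2) ^ n := by
  obtain ⟨M, hM⟩ := h.unif1 h0 h1 hA hD T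
  obtain ⟨c, hc, hK⟩ := h.K_diff h0 hA hD hM
  obtain ⟨c', hc', hf⟩ := h.f_diff hA hD fun n t ht => (hM n t ht).1
  obtain ⟨N, hN, hg⟩ := rec_geo (P := fun n s a => ∀ x, ‖K (n + 1) (s, x) - K n (s, x)‖ ≤ a) (T := T) (M := max M 0 + max M 0) hc
    (by positivity) (fun n s a b h1 h2 x => (h1 x).trans h2)
    (fun s hs x => (norm_sub_le _ _).trans (add_le_add (((hM 1 s hs).2.norm_le x).trans (le_max_left _ _))
      (((hM 0 s hs).2.norm_le x).trans (le_max_left _ _)))) hK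
  refine ⟨max N (c' * (T * N)), fun n t ht => ⟨fun z => ?_, fun x => (hg n t ht x).trans ?_⟩⟩
  · refine (hf n (fun _ => N * (1 / 2) ^ n) continuous_const (fun _ => by positivity) (hg n) t ht z).trans ?_
    rw [intervalIntegral.integral_const, sub_zero, smul_eq_mul]
    calc c' * (t * (N * (1 / 2) ^ n)) ≤ c' * (T * (N * (1 / 2) ^ n)) := by gcongr; exact ht.2
      _ = c' * (T * N) * (1 / 2) ^ n := by ring
      _ ≤ _ := mul_le_mul_of_nonneg_right (le_max_right _ _) (by positivity)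
  · exact mul_le_mul_of_nonneg_right (le_max_left _ _) (by positivity)

end Crest.Agent.R106.HR
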